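import Vale.Agent.P011N.D2.Oct
import Vale.Agent.P011.D4Y.H657.Conj
import Vale.Agent.P011.D4Y.H657.S71
import Vale.Agent.P011.D4Y.H862.Bas
import Vale.Agent.P011.D4X.H63.SingX

/-!
The invariant forms of the trialitarian groups of noncyclic cubic extensions have no common zero.
-/

open NumberField

namespace Vale.Agent.P011N.D2

open Vale.Agent.P011 Vale.Agent.P011.MPQ Vale.Agent.P011.D4 Vale.Agent.P011.D4.Oct
  Vale.Agent.P011.D4X Vale.Agent.P011.E6

section abs

variable {k E : Type} [Field k] [Field E] [Algebra k E] [NeZero (2 : E)] {a b c : kˣ}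
  {ρ θ : E ≃ₐ[k] E}

/-- The square of a square. -/
theorem sq_sq (hρ : ∀ x, ρ (ρ (ρ x)) = x) {x : OctL E a b c} (h1 : bil x x = 0)
    (h2 : bil (tri ρ x x) x = 0) : tri ρ (tri ρ x x) (tri ρ x x) = 0 := by
  have h3 : norm x = 0 := by
    rw [bil_self] at h1
    exact (mul_eq_zero.1 h1).resolve_left (NeZero.ne 2)
  have h4 := polar1 hρ x x (tri ρ x x)
  rwa [Orb.tri_tri hρ, h3, bil_comm, h2, map_zero, map_zero, zero_smul, tri_zero_left,
    add_zero] at h4

/-- The case of real rank one. -/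
theorem aniso_abs (hρ : ∀ x, ρ (ρ (ρ x)) = x) {K : OctL E a b c → OctL E a b c} {r s t : E}
    {m : OctL E a b c} (h1 : ∀ x y, K (x + y) = K x + K y) (h2 : ∀ e x, K (e • x) = θ e • K x)
    (h3 : ∀ x, K (K x) = r • x) (h4 : ∀ x y, bil (K x) (K y) = s * θ (bil x y))
    (h5 : ∀ x, K (tri ρ x x) = t • tri ρ (K x) (K x))
    (h6 : ∀ x, bil x m = 0 → bil (K x) x = 0 → x = 0) (h7 : ∀ x, tri ρ x (K x) = 0 → x = 0)
    {x : OctL E a b c} (g1 : bil x x = 0) (g2 : bil (K x) x = 0)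
    (g3 : bil (tri ρ x x) x = 0) : x = 0 := by
  by_contra hx
  have e1 : bil x m ≠ 0 := fun h => hx (h6 x h g2)
  have e2 : bil (K x) (K x) = 0 := by rw [h4, g1, map_zero, mul_zero]
  have e3 : bil (K x) m • x + (-bil x m) • K x = 0 := by
    apply h6
    · rw [bil_add_left, bil_smul_left, bil_smul_left]
      ring
    · rw [h1, h2, h2, h3]
      simp only [bil_add_left, bil_add_right, bil_smul_left, bil_smul_right, g1, g2, e2,
        bil_comm x (K x), mul_zero, add_zero]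
  obtain ⟨l, e4⟩ : ∃ l : E, K x = l • x := ⟨(bil x m)⁻¹ * bil (K x) m, by
    rw [mul_smul, eq_inv_smul_iff₀ e1, eq_neg_of_add_eq_zero_left e3, neg_smul, neg_neg]⟩
  have e5 : tri ρ x x = 0 := h7 _ (by
    rw [h5, e4]
    simp only [tri_smul_left, tri_smul_right, sq_sq hρ g1 g3, smul_zero])
  exact hx (h7 x (by rw [e4, tri_smul_right, e5, smul_zero]))

variable {α q q' q'' : E}

/-- The second hermitian form on a hyperplane. -/
theorem bil_hyp (hα : α ≠ 0) (hα2 : α * α = algebraMap k E a) (hs : θ α = -α)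
    {v : OctL E a b c} (h : bil v ⟨mq a b α (q * q'), 0⟩ = 0) :
    bil v (Jq θ α q q' (star v)) = -q * bil v (Jq θ α 1 q' v) := by
  have h1 : bil v ⟨mq a b α (q * q'), 0⟩ =
      v.fst.re + v.fst.imI * α + q * q' * (v.fst.re - v.fst.imI * α) := by
    have h2 : (2 : E) ≠ 0 := NeZero.ne 2
    have ha : ((up E a : Eˣ) : E) = α * α := hα2.symm
    simp only [bil_eq, mq, ha, mul_zero, sub_zero, add_zero, QuaternionAlgebra.re_zero,
      QuaternionAlgebra.imI_zero, QuaternionAlgebra.imJ_zero, QuaternionAlgebra.imK_zero]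
    field_simp
    ring
  rw [D4Y.S71.bil_JqS hα hα2 hs, bil_Jq hα hα2 hs]
  linear_combination (θ (v.fst.re - v.fst.imI * α) + q * θ (v.fst.re + v.fst.imI * α)) *
    (h1.symm.trans h)

/-- The product of an element with its image under the second semilinear map. -/
theorem bil_prod {σ : E ≃ₐ[k] E} (h : HJ a ρ σ α q q' q'') (hθ : ∀ y, ρ (ρ (θ y)) = θ (ρ y))
    (x : OctL E a b c) : q' * bil (tri ρ x (Jq θ α q q' (star x))) ⟨mq a b α (q * q'), 0⟩ =
      bil (omap ρ x) (Jq θ α q' (q'' * q) (omap ρ x)) := by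
  have e0 : ∀ y : Qt (up E a) (up E b), qmap ρ (qmap ρ (qmap θ y)) = qmap θ (qmap ρ y) :=
    fun y => QuaternionAlgebra.ext (hθ _) (hθ _) (hθ _) (hθ _)
  have e1 : q' • qmap ρ (qmap ρ (star (mq a b α (q * q')))) = mq a b α q' := by
    rw [h.A, qmap_smul, qmap_mq h.ra, smul_smul, map_mul, h.r0, h.r1, h.r2, ← mul_assoc, h.N1,
      one_smul]
  have e2 : qmap ρ (qmap ρ (star (mq a b α q))) * star (mq a b α (q * q')) = 1 := by
    rw [h.B, smul_mul_assoc, mq_star h.al, smul_smul, ← mul_assoc, h.N2, one_smul]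
  have e3 : mq a b α (q' * (q'' * q)) = 1 := by
    rw [← mul_assoc, h.N1, mq_eq, mk4_one]
  have e4 : q' • (qmap ρ (qmap ρ (mq a b α q * star (mq a b α (q * q')))) * mq a b α (q * q')) =
      mq a b α q' := by
    rw [qmap_mul, qmap_mul, qmap_mq h.ra, qmap_mq h.ra, h.r0, h.r1, ← smul_mul_assoc,
      ← mul_smul_comm, e1, mq_mul h.al, mq_mul h.al]
    congr 1
    linear_combination q' * h.N
  rw [tri, omap_star, bil_mul_left, star_star, bil_mul_right', ← bil_smul_left, bil_comm]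
  congr 1
  apply Oct.ext
  · simp only [fst_smul, fst_mul, H24.fst_omap, H24.snd_omap, fst_star, snd_star, fst_Jq, star_mul,
      qmap_mul, neg_zero, star_zero, zero_mul, smul_zero, add_zero, e3, mul_one]
    rw [← qmap_star, star_star, e0, mul_assoc, mul_assoc, e2, mul_one, ← smul_mul_assoc, e1]
  · simp only [snd_smul, snd_mul, H24.fst_omap, H24.snd_omap, fst_star, snd_star, snd_Jq, star_star,
      neg_zero, zero_mul, zero_add, e3, star_one, mul_one, qmap_neg, neg_mul, neg_neg]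
    rw [qmap_mul, qmap_mul, e0, mul_assoc, ← mul_smul_comm, e4]

end abs

section model

variable {k L E : Type} [Field k] [NumberField k] [Field L] [NumberField L] [Field E]
  [NumberField E] [Algebra k L] [Algebra k E] [Algebra L E] [IsScalarTower k L E]
  {ρ σ ι : E ≃ₐ[k] E} {α : E} {a b c : kˣ} {q : Lˣ}

omit [NumberField k] [NumberField L] in
theorem ji_ji (H : D4Y.HyI ρ σ ι α a b c q) (x : OctL E a b c) :
    Jm ρ σ α q (D4Y.Im ι (Jm ρ σ α q (D4Y.Im ι x))) =
      (σ ((algebraMap L E q)⁻¹ * ρ (ρ (algebraMap L E q))) * rr ρ q) • x := by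
  have h1 := H.Im_Jm (D4Y.Im ι x)
  rw [H.Im_Im', ← eq_inv_smul_iff₀ H.q_ne, smul_smul] at h1
  rw [h1, H.Jm_smul, H.Jm_Jm, smul_smul]

/-- **Anisotropy.** -/
theorem aniso_I (H : D4Y.HyI ρ σ ι α a b c q) {x : OctL E a b c} (g1 : bil x x = 0)
    (g2 : bil (Jm ρ σ α q x) x = 0) (g3 : bil (Jm ρ σ α q (D4Y.Im ι x)) x = 0)
    (g4 : bil (tri ρ x x) x = 0) : x = 0 := by
  obtain ⟨τ, ha, hb, hc, hq⟩ := H.cp
  obtain ⟨w, hw⟩ := E6I.exists_real_over (L := L) H.h3 τ
  obtain ⟨W, hW⟩ := exists_ext (M := E) ((algebraMap ℝ ℂ).comp w)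
  have hW1 : ∀ t : L, W (algebraMap L E t) = ((w t : ℝ) : ℂ) := fun t => RingHom.congr_fun hW t
  have hw1 : ∀ t : k, w (algebraMap k L t) = τ t := fun t => RingHom.congr_fun hw t
  have hW2 : ∀ t : k, W (algebraMap k E t) = ((τ t : ℝ) : ℂ) := fun t => by
    rw [IsScalarTower.algebraMap_apply k L E, hW1, hw1]
  have hj := H.hj
  rcases H.conj_or (w := w) (by rw [hw1]; exact ha) hW1 with h | h
  · have h1 : ComplexEmbedding.IsReal (W.comp ((ρ : E →+* E).comp (algebraMap L E))) :=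
      ComplexEmbedding.isReal_iff.2 (RingHom.ext fun t =>
        (h (ρ (algebraMap L E t))).symm.trans (congrArg W (H.σρL t)))
    have h2 : h1.embedding.comp (algebraMap k L) = τ := RingHom.ext fun t =>
      Complex.ofReal_injective ((h1.coe_embedding_apply _).trans (by
        rw [← hW2, IsScalarTower.algebraMap_apply k L E]
        refine congrArg W ?_
        rw [← IsScalarTower.algebraMap_apply]
        exact (congrArg ρ (IsScalarTower.algebraMap_apply k L E t).symm).trans (ρ.commutes t)))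
    by_contra hx
    obtain ⟨r, hr, h3⟩ := pos_Jq H.al0 H.α2 H.σα W h (hW1 q) (h1.coe_embedding_apply q).symm
      (hW2 b) (hW2 c) (hq w hw) (hq _ h2) hb hc hx
    have h4 : W (bil x (Jm ρ σ α q x)) = r := h3
    rw [bil_comm, g2, map_zero] at h4
    exact hr.ne (Complex.ofReal_injective (Complex.ofReal_zero.trans h4))
  · obtain ⟨θ, hθ⟩ : ∃ θ : E ≃ₐ[k] E, ∀ y, θ y = σ (ι y) := ⟨ι.trans σ, fun _ => rfl⟩
    obtain ⟨U, hU⟩ : ∃ U : E →+* ℂ, ∀ y, U y = W (ρ (ρ y)) :=
      ⟨W.comp ((ρ : E →+* E).comp ρ), fun _ => rfl⟩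
    have hK : ∀ y : OctL E a b c, Jm ρ σ α q (D4Y.Im ι y) =
        Jq θ α (algebraMap L E q) (ρ (algebraMap L E q)) (star y) := fun y => by
      have e : ∀ z : Qt (up E a) (up E b), qmap θ z = qmap σ (qmap ι z) := fun z =>
        QuaternionAlgebra.ext (hθ _) (hθ _) (hθ _) (hθ _)
      apply Oct.ext
      · rw [fst_Jq, e]
        rfl
      · rw [snd_Jq, e]
        rfl
    have h1 : θ α = -α := by rw [hθ, H.ια, H.σα]
    have h2 : ∀ y, U (θ y) = (starRingEnd ℂ) (U y) := fun y => by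
      rw [hU, hU, ← h, H.ιρρ, hθ, H.comm, H.comm]
    have h3 : U (ρ (algebraMap L E q)) = w q := by rw [hU, H.ρ3, hW1]
    have h4 : ∀ t : k, U (algebraMap k E t) = τ t := fun t => by
      rw [hU, ρ.commutes, ρ.commutes, hW2]
    have h5 := hq w hw
    have h6 : U (ρ (ρ (algebraMap L E q)) * algebraMap L E q) = ((w q)⁻¹ : ℝ) := by
      have h7 := congrArg U hj.N2
      rw [map_mul, h3, map_one] at h7
      rw [Complex.ofReal_inv]
      exact eq_inv_of_mul_eq_one_left h7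
    refine aniso_abs H.ρ3 (θ := θ) (K := fun y => Jm ρ σ α q (D4Y.Im ι y)) (s := rr ρ q)
      (t := rr ρ q) (m := ⟨mq a b α (algebraMap L E q * ρ (algebraMap L E q)), 0⟩)
      (fun y z => by rw [D4Y.Im_add, H.Jm_add]) (fun e y => by rw [D4Y.Im_smul, H.Jm_smul, hθ])
      (ji_ji H) (fun y z => by rw [H.bil_Jm, D4Y.bil_Im, hθ])
      (fun y => by rw [H.Im_tri', H.Jm_tri]) (fun y e1 e2 => ?_) (fun y e1 => ?_) g1 g3 g4
    · by_contra hy
      obtain ⟨r, hr, e3⟩ := pos_Jq H.al0 H.α2 h1 U h2 (map_one U) h3 (h4 b) (h4 c) one_pos h5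
        hb hc hy
      rw [hK, bil_comm, bil_hyp H.al0 H.α2 h1 e1] at e2
      rw [(mul_eq_zero.1 e2).resolve_left (neg_ne_zero.2 H.q_ne), map_zero] at e3
      exact hr.ne (Complex.ofReal_injective (Complex.ofReal_zero.trans e3))
    · have e2 := bil_prod hj (θ := θ) (fun z => by rw [hθ, hθ, H.ιρ, H.comm, H.comm]) y
      rw [← hK, e1, bil_zero_left, mul_zero] at e2
      by_contra hy
      have e3 : omap ρ y ≠ 0 := fun e => hy (by
        rw [← Orb.omap_cube H.ρ3 y, e, omap_zero, omap_zero])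
      obtain ⟨r, hr, e4⟩ := pos_Jq H.al0 H.α2 h1 U h2 h3 h6 (h4 b) (h4 c) h5 (inv_pos.2 h5)
        hb hc e3
      rw [← e2, map_zero] at e4
      exact hr.ne (Complex.ofReal_injective (Complex.ofReal_zero.trans e4))

end model

end Vale.Agent.P011N.D2
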