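import Vale.Agent.P011N.D2.Main
import Vale.Agent.P011N.D1.Brg
import Vale.Agent.P011.D4X.H553.TQ
import Vale.Agent.P011.D4X.H62.Aniso
import Vale.Agent.P011.D4X.H657.ZT
import Vale.Agent.P011.D4X.H691.Tr
import Vale.Agent.P011.D4.TG1

/-!
The trialitarian groups of cyclic cubic extensions.
-/

namespace Vale.Agent.P011N.D2

open Vale.Agent.P011 Vale.Agent.P011.MPQ Vale.Agent.P011.D4 Vale.Agent.P011.D4.Oct
  Vale.Agent.P011.D4X Vale.Agent.P011.E6

theorem surj_of {E V : Type} [Field E] [AddCommGroup V] [Module E V] {A : V → V} {r : E}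
    (hr : r ≠ 0) (h : ∀ x, A (A x) = r • x) : Function.Surjective A := fun y =>
  ⟨A (r⁻¹ • y), by rw [h, smul_inv_smul₀ hr]⟩

theorem linT_hasGood : D1.LinT HasGood := by
  intro k L E _ _ _ _ _ _ _ _ _ _ ρ σ ρL α a b c q H _
  have hr : rr ρ q ≠ 0 := mul_ne_zero H.hj.q_ne (mul_ne_zero H.hj.q_ne H.hj.q1_ne)
  refine hasGood_tri (S := Unit) (q := q) (fun _ => Jm ρ σ α q) (fun _ => σ) _ H.ρ3 H.α0 H.ρα ?_
    (fun _ => Jm_add H) (fun _ => Jm_smul H) (fun _ => surj_of hr (Jm_Jm H))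
    (fun g => and_congr_right' ⟨fun h _ => h, fun h => h ()⟩) (fun e h1 h2 => TQ.fixE H (h2 ()) h1)
    (fun x _ h _ => ?_) fun b' c' j l h x hx => ?_
  · by_contra h
    push Not at h
    exact H.ρ1 (AlgEquiv.ext fun t => (algebraMap L E).injective ((H.ρL' t).symm.trans (h t)))
  · by_contra h0
    exact aniso H h0 ((bil_comm _ _).trans (h ()))
  · obtain ⟨y, rfl⟩ := TG.exists_SL1 x hx
    obtain ⟨g, hg, hg'⟩ := exists_short (c := c') (H691.hyTrip H h) y
    exact ⟨_, (H691.cj_mem_GT h).2 hg, fun z => by rw [H691.cj_apply, hg']⟩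

/-- **Cyclic cubic extensions.** -/
theorem clD3_hasGood : ClD3 HasGood := D1.clD3_of D1.isoInv_hasGood linT_hasGood

end Vale.Agent.P011N.D2
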