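import Vale.Agent.P011N.D2.Good

/-!
Families of forms with values in a number field.
-/

namespace Vale.Agent.P011N.D2

variable {E V : Type} [AddCommGroup E] [Module ℚ E] [FiniteDimensional ℚ E]
  [AddCommGroup V] [Module ℚ V]

/-- The coordinates of a finite family of forms with values in `E`. -/
noncomputable def eForms {I : Type} [Finite I] (deg : I → ℕ)
    (φ : ∀ i, MultilinearMap ℚ (fun _ : Fin (deg i) => V) E) : Forms V where
  I := I × Fin (Module.finrank ℚ E)
  fin := inferInstance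
  deg p := deg p.1
  τ p := ((Module.finBasis ℚ E).coord p.2).compMultilinearMap (φ p.1)

variable {I : Type} [Finite I] {deg : I → ℕ}
  {φ : ∀ i, MultilinearMap ℚ (fun _ : Fin (deg i) => V) E}

theorem mem_grp_e {g : V ≃ₗ[ℚ] V} :
    g ∈ (eForms deg φ).grp ↔ ∀ i x, φ i (fun j => g (x j)) = φ i x :=
  ⟨fun h i x => (Module.finBasis ℚ E).ext_elem fun m => h (i, m) x,
    fun h p x => congrArg ((Module.finBasis ℚ E).coord p.2) (h p.1 x)⟩

theorem mem_lie_e {X : Module.End ℚ V} :
    X ∈ (eForms deg φ).lie ↔ ∀ i x, ∑ j, φ i (Function.update x j (X (x j))) = 0 := by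
  constructor
  · intro h i x
    refine (Module.finBasis ℚ E).ext_elem fun m => ?_
    have h1 := h (i, m) x
    rw [map_sum, map_zero, Finsupp.finsetSum_apply]
    exact h1
  · intro h p x
    have h1 := congrArg ((Module.finBasis ℚ E).coord p.2) (h p.1 x)
    rw [map_sum, map_zero] at h1
    exact h1

theorem aniso_e (h : ∀ x : V, x ≠ 0 → ∃ i, deg i ≠ 0 ∧ φ i (fun _ => x) ≠ 0) (x : V)
    (hx : x ≠ 0) : ∃ p, (eForms deg φ).deg p ≠ 0 ∧ (eForms deg φ).τ p (fun _ => x) ≠ 0 := by
  obtain ⟨i, h1, h2⟩ := h x hx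
  by_contra h3
  push Not at h3
  refine h2 ((Module.finBasis ℚ E).ext_elem fun m => ?_)
  rw [map_zero]
  exact h3 (i, m) h1

omit [FiniteDimensional ℚ E] in
/-- A multilinear map from a function which is additive in each variable. -/
def mlOf {n : ℕ} (f : (Fin n → V) → E)
    (h : ∀ x i u v, f (Function.update x i (u + v)) =
      f (Function.update x i u) + f (Function.update x i v)) :
    MultilinearMap ℚ (fun _ : Fin n => V) E :=
  MultilinearMap.mk' f h fun x i c u =>
    map_rat_smul (AddMonoidHom.mk' (fun u => f (Function.update x i u)) (h x i)) c u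

omit [FiniteDimensional ℚ E] in
/-- A bilinear form. -/
def ml2 (f : V → V → E) (h1 : ∀ u v y, f (u + v) y = f u y + f v y)
    (h2 : ∀ x u v, f x (u + v) = f x u + f x v) : MultilinearMap ℚ (fun _ : Fin 2 => V) E :=
  mlOf (fun x => f (x 0) (x 1)) fun x i u v => by
    fin_cases i
    · exact h1 _ _ _
    · exact h2 _ _ _

omit [FiniteDimensional ℚ E] in
/-- A trilinear form. -/
def ml3 (f : V → V → V → E) (h1 : ∀ u v y z, f (u + v) y z = f u y z + f v y z)
    (h2 : ∀ x u v z, f x (u + v) z = f x u z + f x v z)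
    (h3 : ∀ x y u v, f x y (u + v) = f x y u + f x y v) :
    MultilinearMap ℚ (fun _ : Fin 3 => V) E :=
  mlOf (fun x => f (x 0) (x 1) (x 2)) fun x i u v => by
    fin_cases i
    · exact h1 _ _ _ _
    · exact h2 _ _ _ _
    · exact h3 _ _ _ _

omit [FiniteDimensional ℚ E] in
theorem ml2_apply (f : V → V → E) (h1 h2) (x : Fin 2 → V) : ml2 f h1 h2 x = f (x 0) (x 1) := rfl

omit [FiniteDimensional ℚ E] in
theorem ml3_apply (f : V → V → V → E) (h1 h2 h3) (x : Fin 3 → V) :
    ml3 f h1 h2 h3 x = f (x 0) (x 1) (x 2) := rfl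

omit [FiniteDimensional ℚ E] in
theorem ml2_grp (f : V → V → E) (h1 h2) (g : V → V) :
    (∀ x, ml2 f h1 h2 (fun j => g (x j)) = ml2 f h1 h2 x) ↔ ∀ x y, f (g x) (g y) = f x y :=
  ⟨fun h x y => h ![x, y], fun h x => h (x 0) (x 1)⟩

omit [FiniteDimensional ℚ E] in
theorem ml3_grp (f : V → V → V → E) (h1 h2 h3) (g : V → V) :
    (∀ x, ml3 f h1 h2 h3 (fun j => g (x j)) = ml3 f h1 h2 h3 x) ↔
      ∀ x y z, f (g x) (g y) (g z) = f x y z :=
  ⟨fun h x y z => h ![x, y, z], fun h x => h (x 0) (x 1) (x 2)⟩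

omit [FiniteDimensional ℚ E] in
theorem ml2_lie (f : V → V → E) (h1 h2) (X : V → V) :
    (∀ x, ∑ j, ml2 f h1 h2 (Function.update x j (X (x j))) = 0) ↔
      ∀ x y, f (X x) y + f x (X y) = 0 := by
  simp only [Fin.sum_univ_two]
  exact ⟨fun h x y => h ![x, y], fun h x => h (x 0) (x 1)⟩

omit [FiniteDimensional ℚ E] in
theorem ml3_lie (f : V → V → V → E) (h1 h2 h3) (X : V → V) :
    (∀ x, ∑ j, ml3 f h1 h2 h3 (Function.update x j (X (x j))) = 0) ↔
      ∀ x y z, f (X x) y z + f x (X y) z + f x y (X z) = 0 := by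
  simp only [Fin.sum_univ_three]
  exact ⟨fun h x y z => h ![x, y, z], fun h x => h (x 0) (x 1) (x 2)⟩

/-- An automorphism which preserves a nondegenerate bilinear form has determinant `1` or `-1`. -/
theorem det_of_form [FiniteDimensional ℚ V] (B : LinearMap.BilinForm ℚ V) (hB : B.Nondegenerate)
    (g : Module.End ℚ V) (hg : ∀ x y, B (g x) (g y) = B x y) : |LinearMap.det g| = 1 := by
  classical
  let e := Module.finBasis ℚ V
  have h1 : B.comp g g = B := LinearMap.ext fun x => LinearMap.ext fun y => hg x y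
  have h2 := congrArg Matrix.det (LinearMap.BilinForm.toMatrix_comp e e B g g)
  rw [h1, Matrix.det_mul, Matrix.det_mul, Matrix.det_transpose, LinearMap.det_toMatrix] at h2
  have h3 := (LinearMap.BilinForm.nondegenerate_iff_det_ne_zero e).1 hB
  have h4 : LinearMap.det g ^ 2 = 1 := by
    apply mul_right_cancel₀ h3
    linear_combination -h2
  exact (pow_eq_one_iff_of_nonneg (abs_nonneg _) two_ne_zero).1 (by rw [sq_abs, h4])

/-- The same for a form with values in a number field. -/
theorem det_of_eform {K : Type} [Field K] [CharZero K] [Module K V] [FiniteDimensional ℚ V]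
    (f : V → V → K) (h1 : ∀ u v y, f (u + v) y = f u y + f v y)
    (h2 : ∀ x u v, f x (u + v) = f x u + f x v) (h3 : ∀ (t : K) x y, f x (t • y) = t * f x y)
    (h4 : ∀ x, (∀ y, f x y = 0) → x = 0)
    (g : Module.End ℚ V) (hg : ∀ x y, f (g x) (g y) = f x y) : |LinearMap.det g| = 1 := by
  obtain ⟨l, hl⟩ : ∃ l : Module.Dual ℚ K, l 1 ≠ 0 := by
    by_contra h
    push Not at h
    exact one_ne_zero ((Module.forall_dual_apply_eq_zero_iff ℚ (1 : K)).1 h)
  let F : V →+ V →+ ℚ := AddMonoidHom.mk' (fun x => AddMonoidHom.mk' (fun y => l (f x y))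
    fun u v => by rw [h2, map_add]) fun u v => by
      ext y
      change l (f (u + v) y) = l (f u y) + l (f v y)
      rw [h1, map_add]
  let B : LinearMap.BilinForm ℚ V := LinearMap.mk₂ ℚ (fun x y => F x y)
    (fun u v y => by rw [map_add, AddMonoidHom.add_apply])
    (fun c x y => map_rat_smul (F.flip y) c x) (fun x u v => map_add _ _ _)
    fun c x y => map_rat_smul (F x) c y
  refine det_of_form B
    (LinearMap.BilinForm.Nondegenerate.ofSeparatingLeft fun x hx => h4 x fun y => ?_) g fun x y => congrArg l (hg x y)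
  by_contra h
  have h5 : l (f x ((f x y)⁻¹ • y)) = 0 := hx _
  rw [h3, inv_mul_cancel₀ h] at h5
  exact hl h5

end Vale.Agent.P011N.D2
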