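import Vale.Agent.P011N.D2.Cyc
import Vale.Agent.P011N.D2.Ani
import Vale.Agent.P011.D4Y.H657.Bas
import Vale.Agent.P011.D4Y.H691.Tr

/-!
Block D2: the trialitarian groups are groups of good families of forms.
-/

namespace Vale.Agent.P011N.D2

open Vale.Agent.P011 Vale.Agent.P011.MPQ Vale.Agent.P011.D4 Vale.Agent.P011.D4.Oct
  Vale.Agent.P011.D4X Vale.Agent.P011.E6

theorem linI_hasGood : D1.LinI HasGood := by
  intro k L E _ _ _ _ _ _ _ _ _ _ ρ σ ι α a b c q H _
  have hr : rr ρ q ≠ 0 := mul_ne_zero H.q_ne (mul_ne_zero H.q_ne H.hj.q1_ne)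
  have hJ : Function.Surjective (Jm ρ σ α q : OctL E a b c → _) := surj_of hr H.Jm_Jm
  have hJ' : Function.Injective (Jm ρ σ α q : OctL E a b c → _) := fun x y h =>
    smul_right_injective _ hr ((H.Jm_Jm x).symm.trans ((congrArg _ h).trans (H.Jm_Jm y)))
  refine hasGood_tri (S := Bool) (q := q)
    (fun s x => Jm ρ σ α q (cond s x (D4Y.Im ι x))) (fun s => cond s σ (ι.trans σ)) _ H.ρ3 H.al0
    H.ρα H.ρL (fun s x y => ?_) (fun s t x => ?_) (fun s => ?_)
    (fun g => and_congr_right' ⟨fun h s x => ?_, fun h => ⟨h true, fun x => hJ' ?_⟩⟩)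
    (fun e h1 h2 => H.fixk e h1 (h2 true) (σ.injective ((h2 false).trans (h2 true).symm)))
    (fun x h1 h2 h3 => aniso_I H h1 (h2 true) (h2 false) h3) fun b' c' j l h x hx => ?_
  · cases s
    · exact (congrArg _ (D4Y.Im_add x y)).trans (H.Jm_add _ _)
    · exact H.Jm_add x y
  · cases s
    · exact (congrArg _ (D4Y.Im_smul t x)).trans (H.Jm_smul _ _)
    · exact H.Jm_smul t x
  · cases s
    · exact hJ.comp fun y => ⟨_, H.Im_Im' y⟩
    · exact hJ
  · cases s
    · exact (h.1 _).trans (congrArg _ (h.2 x))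
    · exact h.1 x
  · exact (h true _).symm.trans (h false x)
  · obtain ⟨y, rfl⟩ := TG.exists_SL1 x hx
    obtain ⟨g, hg, hg'⟩ := D4Y.exists_shortI (c := c') (D4Y.hyTripI H h) y
    exact ⟨_, (D4Y.cj_mem_GTI h).2 hg, fun z => by rw [H691.cj_apply, hg']⟩

/-- **Noncyclic cubic extensions.** -/
theorem clD6_hasGood : ClD6 HasGood := D1.clD6_of D1.isoInv_hasGood linI_hasGood

/-- **Block D2.** -/
theorem blockD2 : ClD3 HasGood ∧ ClD6 HasGood := ⟨clD3_hasGood, clD6_hasGood⟩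

end Vale.Agent.P011N.D2
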