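import Vale.Agent.P011N.D2.Oct
import Vale.Agent.P011.D4X.H553.KC
import Vale.Agent.P011.D4X.H862.BaseX
import Vale.Agent.P011.D4.BNear

/-!
The derivatives of the short subgroups generate the orthogonal Lie algebra.
-/

namespace Vale.Agent.P011N.D2

open Vale.Agent.P011 Vale.Agent.P011.MPQ Vale.Agent.P011.D4 Vale.Agent.P011.D4.Oct
  Vale.Agent.P011.D4X Vale.Agent.P011.E6

theorem vander {E M : Type} [Field E] [AddCommGroup M] [Module E M] {S : Submodule E M}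
    {A B C : M} {x y z : E} (hxy : x ≠ y) (hxz : x ≠ z) (h0 : A + B + C ∈ S)
    (h1 : x • A + y • B + z • C ∈ S) (h2 : (x * x) • A + (y * y) • B + (z * z) • C ∈ S) :
    A ∈ S := by
  have h3 := add_mem (sub_mem h2 (S.smul_mem (y + z) h1)) (S.smul_mem (y * z) h0)
  rw [← S.smul_mem_iff (mul_ne_zero (sub_ne_zero.2 hxy) (sub_ne_zero.2 hxz))]
  convert h3 using 1
  module

section oct

variable {F : Type} [Field F] {a b : Fˣ} (c : Fˣ)

/-- Left multiplication on the first component. -/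
def mL : Qt a b →ₗ[F] Module.End F (Oct a b c) where
  toFun p :=
    { toFun := fun y => ⟨p * y.fst, 0⟩
      map_add' := fun x y => by ext1 <;> simp [mul_add]
      map_smul' := fun t x => by ext1 <;> simp }
  map_add' p q := LinearMap.ext fun y => by ext1 <;> simp [add_mul]
  map_smul' t p := LinearMap.ext fun y => by ext1 <;> simp

/-- Right multiplication on the first component. -/
def mR : Qt a b →ₗ[F] Module.End F (Oct a b c) where
  toFun p :=
    { toFun := fun y => ⟨y.fst * p, 0⟩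
      map_add' := fun x y => by ext1 <;> simp [add_mul]
      map_smul' := fun t x => by ext1 <;> simp }
  map_add' p q := LinearMap.ext fun y => by ext1 <;> simp [mul_add]
  map_smul' t p := LinearMap.ext fun y => by ext1 <;> simp

/-- Right multiplication on the second component. -/
def mS : Qt a b →ₗ[F] Module.End F (Oct a b c) where
  toFun p :=
    { toFun := fun y => ⟨0, y.snd * p⟩
      map_add' := fun x y => by ext1 <;> simp [add_mul]
      map_smul' := fun t x => by ext1 <;> simp }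
  map_add' p q := LinearMap.ext fun y => by ext1 <;> simp [mul_add]
  map_smul' t p := LinearMap.ext fun y => by ext1 <;> simp

theorem mL_add_mR {p : Qt a b} (hp : p.re = 0) :
    mL c p + mR c p = wedge (bilB a b c) 1 ⟨p, 0⟩ := by
  refine LinearMap.ext fun y => ?_
  rw [wedge_apply, bilB_apply, bilB_apply, bil_eq, bil_eq]
  apply ext8 <;> simp [mL, mR, hp] <;> ring

/-- The pure quaternions are spanned by the twisted basis. -/
theorem span_tw (h2 : (2 : F) ≠ 0) {α s : F} (hα : α ≠ 0) (hs : s ≠ 0) {S : Submodule F (Qt a b)}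
    (h1 : (⟨0, 0, (s + 1) / 2, (s - 1) / (2 * α)⟩ : Qt a b) ∈ S)
    (h3 : (⟨0, 0, (s * α - α) / 2, (s * α + α) / (2 * α)⟩ : Qt a b) ∈ S) :
    (⟨0, 0, 1, 0⟩ : Qt a b) ∈ S ∧ (⟨0, 0, 0, 1⟩ : Qt a b) ∈ S := by
  constructor
  · convert S.smul_mem s⁻¹
      (sub_mem (S.smul_mem ((s + 1) / 2) h1) (S.smul_mem ((s - 1) / (2 * α)) h3)) using 1
    ext <;> simp only [QuaternionAlgebra.re_smul, QuaternionAlgebra.imI_smul,
      QuaternionAlgebra.imJ_smul, QuaternionAlgebra.imK_smul, QuaternionAlgebra.re_sub,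
      QuaternionAlgebra.imI_sub, QuaternionAlgebra.imJ_sub, QuaternionAlgebra.imK_sub,
      smul_eq_mul] <;> field_simp <;> ring
  · convert S.smul_mem s⁻¹
      (sub_mem (S.smul_mem ((s + 1) / 2) h3) (S.smul_mem ((s * α - α) / 2) h1)) using 1
    ext <;> simp only [QuaternionAlgebra.re_smul, QuaternionAlgebra.imI_smul,
      QuaternionAlgebra.imJ_smul, QuaternionAlgebra.imK_smul, QuaternionAlgebra.re_sub,
      QuaternionAlgebra.imI_sub, QuaternionAlgebra.imJ_sub, QuaternionAlgebra.imK_sub,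
      smul_eq_mul] <;> field_simp <;> ring

theorem ob_eq : (Em.ob 3 : Oct a b c) = gi * gj ∧ (Em.ob 5 : Oct a b c) = gi * gl ∧
    (Em.ob 6 : Oct a b c) = gj * gl ∧ (Em.ob 7 : Oct a b c) = (-1 : F) • (gi * (gj * gl)) := by
  refine ⟨?_, ?_, ?_, ?_⟩ <;> apply ext8 <;> simp [Em.ob, gi, gj, gl]

theorem emb_eq {a' b' c' : Fˣ} (i j l : Oct a b c) :
    Oct.emb i j l (⟨⟨0, 1, 0, 0⟩, 0⟩ : Oct a' b' c') = i ∧
      Oct.emb i j l (⟨⟨0, 0, 1, 0⟩, 0⟩ : Oct a' b' c') = j ∧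
      Oct.emb i j l (⟨⟨0, 0, 0, 1⟩, 0⟩ : Oct a' b' c') = i * j := by
  refine ⟨?_, ?_, ?_⟩ <;> simp [Oct.emb, qemb]

theorem neg_star_mk (x y z : F) : -star (⟨0, x, y, z⟩ : Qt a b) = ⟨0, x, y, z⟩ := by
  ext <;> simp

end oct

variable {k L E : Type} [Field k] [Field L] [Field E] [Algebra k L] [Algebra k E] [Algebra L E]
  [IsScalarTower k L E] {a b c : kˣ}

/-- The derivative of the short subgroup. -/
def dS (ρ : E ≃ₐ[k] E) (c : kˣ) (p : Qt (up E a) (up E b)) : Module.End E (OctL E a b c) :=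
  mL (up E c) p + mR (up E c) (star (qmap ρ (qmap ρ p))) + mS (up E c) (star (qmap ρ p))

theorem dS_smul (ρ : E ≃ₐ[k] E) (t : E) (p : Qt (up E a) (up E b)) : dS ρ c (t • p) =
    t • mL (up E c) p + ρ (ρ t) • mR (up E c) (star (qmap ρ (qmap ρ p))) +
      ρ t • mS (up E c) (star (qmap ρ p)) := by
  rw [dS, qmap_smul, qmap_smul, QuaternionAlgebra.star_smul, QuaternionAlgebra.star_smul,
    map_smul, map_smul, map_smul]

theorem qmap_pure (ρ : E ≃ₐ[k] E) (x y z : E) :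
    -star (qmap ρ (qmap ρ (⟨0, x, y, z⟩ : Qt (up E a) (up E b)))) =
      ⟨0, ρ (ρ x), ρ (ρ y), ρ (ρ z)⟩ := by
  rw [← neg_star_mk (ρ (ρ x))]
  congr 2
  apply QuaternionAlgebra.ext
  · exact (congrArg ρ (map_zero ρ)).trans (map_zero ρ)
  all_goals rfl

variable {ρ : E ≃ₐ[k] E} {α : E} {q : Lˣ}

omit [IsScalarTower k L E] in
theorem psiL_j : (psiL α q (⟨0, 0, 1, 0⟩ : Qt (up L a) (q * up L b)) : Qt (up E a) (up E b)) =
    ⟨0, 0, (algebraMap L E q + 1) / 2, (algebraMap L E q - 1) / (2 * α)⟩ := by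
  ext <;> simp [psiL]

omit [IsScalarTower k L E] in
theorem psiL_k : (psiL α q (⟨0, 0, 0, 1⟩ : Qt (up L a) (q * up L b)) : Qt (up E a) (up E b)) =
    ⟨0, 0, (algebraMap L E q * α - α) / 2, (algebraMap L E q * α + α) / (2 * α)⟩ := by
  ext <;> simp [psiL, sub_eq_add_neg]

/-- One frame. -/
theorem frame_mem (h2 : (2 : E) ≠ 0) (hρ : ∀ x, ρ (ρ (ρ x)) = x) (hα : α ≠ 0) (hρα : ρ α = α)
    (ht : ∃ t : L, ρ (algebraMap L E t) ≠ algebraMap L E t)
    {S : Submodule E (Module.End E (OctL E a b c))}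
    (hS : ∀ w : Qt (up L a) (q * up L b), w.re = 0 → dS ρ c (psiL α q w) ∈ S) :
    wedge (bilB _ _ _) 1 (⟨⟨0, 1, 0, 0⟩, 0⟩ : OctL E a b c) ∈ S ∧
      wedge (bilB _ _ _) 1 (⟨⟨0, 0, 1, 0⟩, 0⟩ : OctL E a b c) ∈ S ∧
      wedge (bilB _ _ _) 1 (⟨⟨0, 0, 0, 1⟩, 0⟩ : OctL E a b c) ∈ S := by
  obtain ⟨t, ht⟩ := ht
  have n1 : ρ (ρ (algebraMap L E t)) ≠ ρ (algebraMap L E t) := fun h => ht (ρ.injective h)
  have n2 : algebraMap L E t ≠ ρ (ρ (algebraMap L E t)) := fun h =>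
    ht ((congrArg ρ h).trans (hρ _))
  have key : ∀ w : Qt (up L a) (q * up L b), w.re = 0 → psiL α q w ∈ S.comap (mL (up E c)) ∧
      -star (qmap ρ (qmap ρ (psiL α q w))) ∈ S.comap (mR (up E c)) := by
    intro w hw
    have h0 := hS w hw
    have h1 := hS (t • w) (by simp [hw])
    have h3 := hS ((t * t) • w) (by simp [hw])
    rw [KCx.psiL_smul, dS_smul] at h1 h3
    rw [map_mul, map_mul, map_mul] at h3
    refine ⟨vander (S := S) n2 ht.symm h0 h1 h3, neg_mem ?_⟩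
    rw [dS, add_comm (mL _ _)] at h0
    rw [add_comm (_ • mL _ _)] at h1 h3
    exact vander (S := S) n2.symm n1 h0 h1 h3
  have hq : algebraMap L E (q : L) ≠ 0 := (map_ne_zero _).2 q.ne_zero
  have hq2 : ρ (ρ (algebraMap L E (q : L))) ≠ 0 := (map_ne_zero _).2 ((map_ne_zero _).2 hq)
  obtain ⟨i1, i2⟩ := key ⟨0, 1, 0, 0⟩ rfl
  obtain ⟨j1, j2⟩ := key ⟨0, 0, 1, 0⟩ rfl
  obtain ⟨k1, k2⟩ := key ⟨0, 0, 0, 1⟩ rfl
  have r2 : ρ 2 = 2 := map_ofNat ρ 2
  rw [KCx.psiL_i] at i1 i2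
  rw [psiL_j] at j1 j2
  rw [psiL_k] at k1 k2
  rw [qmap_pure] at i2 j2 k2
  simp only [map_zero, map_one, map_div₀, map_add, map_sub, map_mul, r2, hρα] at i2 j2 k2
  obtain ⟨l1, l2⟩ := span_tw h2 hα hq j1 k1
  obtain ⟨m1, m2⟩ := span_tw h2 hα hq2 j2 k2
  rw [← mL_add_mR _ rfl, ← mL_add_mR _ rfl, ← mL_add_mR _ rfl]
  exact ⟨add_mem i1 i2, add_mem l1 m1, add_mem l2 m2⟩

variable [NeZero (2 : E)]

variable (ρ α a b c q) in
/-- The tangent vectors of the short subgroups. -/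
def TS : Set (Module.End E (OctL E a b c)) :=
  {X | ∃ (b' c' : kˣ) (j l : Oct a b c) (h : Trip a b' c' gi j l) (w : Qt (up L a) (q * up L b')),
    w.re = 0 ∧ X = (tripO E h).conj (dS ρ c' (psiL α q w))}

theorem conj_wedge {b' c' : kˣ} {j l : Oct a b c} (h : Trip a b' c' gi j l) (y : OctL E a b' c') :
    (tripO E h).conj (wedge (bilB _ _ _) 1 y) = wedge (bilB _ _ _) 1 (tripO E h y) := by
  refine LinearMap.ext fun z => ?_
  obtain ⟨z, rfl⟩ := (tripO E h).surjective z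
  rw [LinearEquiv.conj_apply_apply, LinearEquiv.symm_apply_apply, wedge_apply, wedge_apply,
    map_sub, map_smul, map_smul, bilB_apply, bilB_apply, bilB_apply, bilB_apply,
    hom_bil (tripO_mul h), ← hom_bil (tripO_mul h) 1, hom_one (tripO_mul h)]

theorem ts_smul (t : k) {X : Module.End E (OctL E a b c)} (hX : X ∈ TS a b c ρ α q) :
    algebraMap k E t • X ∈ TS a b c ρ α q := by
  obtain ⟨b', c', j, l, h, w, hw, rfl⟩ := hX
  refine ⟨b', c', j, l, h, algebraMap k L t • w, by simp [hw], ?_⟩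
  rw [KCx.psiL_smul, dS_smul, ← IsScalarTower.algebraMap_apply, ρ.commutes, ρ.commutes,
    ← smul_add, ← smul_add, map_smul]
  rfl

/-- **Generation.** -/
theorem gen_ts [NeZero (2 : k)] (hρ : ∀ x, ρ (ρ (ρ x)) = x) (hα : α ≠ 0) (hρα : ρ α = α)
    (ht : ∃ t : L, ρ (algebraMap L E t) ≠ algebraMap L E t) :
    Gen (TS a b c ρ α q) (so (bilB (up E a) (up E b) (up E c))) := by
  intro S hc hS
  have key : ∀ {b' c' : kˣ} {j l : Oct a b c} (_ : Trip a b' c' gi j l),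
      wedge (bilB _ _ _) 1 (gi : OctL E a b c) ∈ S ∧ wedge (bilB _ _ _) 1 (oup E j) ∈ S ∧
        wedge (bilB _ _ _) 1 (gi * oup E j) ∈ S := by
    intro b' c' j l h
    obtain ⟨h1, h2, h3⟩ := frame_mem (q := q) (NeZero.ne 2) hρ hα hρα ht
      (S := S.comap (tripO E h).conj.toLinearMap) fun w hw => hS ⟨b', c', j, l, h, w, hw, rfl⟩
    rw [Submodule.mem_comap, LinearEquiv.coe_coe, conj_wedge, tripO_apply] at h1 h2 h3
    rw [(emb_eq _ _ _ _).1, oup_gi] at h1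
    rw [(emb_eq _ _ _ _).2.1] at h2
    rw [(emb_eq _ _ _ _).2.2, oup_gi] at h3
    exact ⟨h1, h2, h3⟩
  obtain ⟨h1, h2, h3⟩ := key (trip_std (a := a) (b := b) (c := c))
  obtain ⟨-, h4, h5⟩ := key (B.trip_swap (a := a) (b := b) (c := c))
  obtain ⟨-, h6, h7⟩ := key (H862.trip_jl a b c)
  rw [oup_gj] at h2 h3
  rw [oup_gl] at h4 h5
  rw [oup_mul, oup_gj, oup_gl] at h6 h7
  have h8 := neg_mem h7
  rw [← neg_one_smul E, ← wedge_smul_right] at h8
  refine (orth_oct (NeZero.ne 2)).le_of_cl hc 0 fun m hm => ?_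
  rw [obB_apply, obB_apply]
  have e0 : (Em.ob 0 : OctL E a b c) = 1 := rfl
  rw [e0]
  fin_cases m
  · exact absurd rfl hm
  · exact h1
  · exact h2
  · exact (ob_eq (up E c)).1 ▸ h3
  · exact h4
  · exact (ob_eq (up E c)).2.1 ▸ h5
  · exact (ob_eq (up E c)).2.2.1 ▸ h6
  · exact (ob_eq (up E c)).2.2.2 ▸ h8

end Vale.Agent.P011N.D2
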