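import Vale.Agent.P011N.D2.Rat

/-!
A criterion for a family of forms to be good: the Lie algebra is a form of a simple Lie algebra
over a number field, which is generated by tangent vectors.
-/

namespace Vale.Agent.P011N.D2

section rel

variable {E M : Type} [Field E] [AddCommGroup M] [Module E M]

/-- The map `φ` preserves the linear relations between the elements of `g`. -/
def Rel (g : Set M) (φ : E → E) : Prop :=
  ∀ (ι : Type) [Fintype ι] (e : ι → E) (w : ι → M), (∀ i, w i ∈ g) → ∑ i, e i • w i = 0 →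
    ∑ i, φ (e i) • w i = 0

/-- Averaging over the automorphisms which preserve the relations. -/
theorem exists_rel {k : Type} [Field k] [Algebra k E] [FiniteDimensional k E] [CharZero E]
    (g : Set M) (hfix : ∀ e : E, (∀ γ : E ≃ₐ[k] E, Rel g γ → γ e = e) →
      e ∈ Set.range (algebraMap k E)) :
    ∃ φ : E → E, Rel g φ ∧ (∀ e, φ e ∈ Set.range (algebraMap k E)) ∧ φ 1 ≠ 0 := by
  classical
  let S : Finset (E ≃ₐ[k] E) := Finset.univ.filter fun γ => Rel g γ
  have hS : ∀ γ, γ ∈ S ↔ Rel g γ := fun γ => by simp [S]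
  refine ⟨fun e => ∑ γ ∈ S, γ e, fun ι _ e w hw h => ?_, fun e => hfix _ fun δ hδ => ?_, ?_⟩
  · simp only [Finset.sum_smul]
    rw [Finset.sum_comm]
    exact Finset.sum_eq_zero fun γ hγ => (hS γ).1 hγ ι e w hw h
  · have h1 : S.image (fun γ => δ * γ) = S := by
      apply Finset.eq_of_subset_of_card_le
      · intro γ hγ
        obtain ⟨γ', h2, rfl⟩ := Finset.mem_image.1 hγ
        exact (hS _).2 fun ι _ e w hw h => hδ ι _ w hw ((hS γ').1 h2 ι e w hw h)
      · rw [Finset.card_image_of_injective _ (mul_right_injective δ)]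
    beta_reduce
    rw [map_sum]
    conv_rhs => rw [← h1, Finset.sum_image fun _ _ _ _ h => mul_right_injective δ h]
    rfl
  · simp only [map_one, Finset.sum_const, nsmul_eq_mul, mul_one, Nat.cast_ne_zero]
    exact Finset.card_ne_zero.2 ⟨1, (hS 1).2 fun ι _ e w _ h => h⟩

/-- Descent. -/
theorem mem_of_rel {k : Type} [Field k] [Algebra k E] {g : Set M} {φ : E → E} (h : Rel g φ)
    (h1 : ∀ e, φ e ∈ Set.range (algebraMap k E)) (h2 : φ 1 ≠ 0) {W : AddSubgroup M}
    (hW : ∀ w ∈ W, w ∈ g) (hk : ∀ (t : k), ∀ w ∈ W, algebraMap k E t • w ∈ W) {x : M}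
    (hx : x ∈ g) (hx' : x ∈ Submodule.span E (W : Set M)) : x ∈ W := by
  obtain ⟨n, e, w, hw⟩ := Submodule.mem_span_set'.1 hx'
  have h3 := h (Option (Fin n)) (fun i => i.elim 1 fun i => -e i) (fun i => i.elim x fun i => w i)
    (fun i => by
      cases i with
      | none => exact hx
      | some i => exact hW _ (w i).2) (by
      rw [Fintype.sum_option]
      simp [hw])
  rw [Fintype.sum_option] at h3
  simp only [Option.elim] at h3
  have h4 : φ 1 • x ∈ W := by
    rw [eq_neg_of_add_eq_zero_left h3]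
    refine neg_mem (sum_mem fun i _ => ?_)
    obtain ⟨t, ht⟩ := h1 (-e i)
    rw [← ht]
    exact hk t _ (w i).2
  obtain ⟨t, ht⟩ := h1 1
  have h5 := hk t⁻¹ _ h4
  rwa [map_inv₀, ht, inv_smul_smul₀ h2] at h5

end rel

section lie

variable {E V : Type} [Field E] [AddCommGroup V] [Module E V]

/-- The subspace is closed under the bracket. -/
def Cl (S : Submodule E (Module.End E V)) : Prop := ∀ Y ∈ S, ∀ Z ∈ S, Y * Z - Z * Y ∈ S

/-- The stabiliser of a subspace. -/
def stabL (U : Submodule E (Module.End E V)) : Submodule E (Module.End E V) where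
  carrier := {Y | ∀ u ∈ U, Y * u - u * Y ∈ U}
  add_mem' := fun {Y Z} hY hZ u hu => by
    have h := add_mem (hY u hu) (hZ u hu)
    convert h using 1
    noncomm_ring
  zero_mem' := fun u _ => by simp
  smul_mem' := fun c Y hY u hu => by
    have h := U.smul_mem c (hY u hu)
    rwa [smul_sub, ← smul_mul_assoc, ← mul_smul_comm] at h

theorem cl_stabL (U : Submodule E (Module.End E V)) : Cl (stabL U) := by
  intro Y hY Z hZ u hu
  have h := sub_mem (hY _ (hZ u hu)) (hZ _ (hY u hu))
  convert h using 1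
  noncomm_ring

/-- The centraliser of an element. -/
def centL (n : Module.End E V) : Submodule E (Module.End E V) where
  carrier := {Y | n * Y = Y * n}
  add_mem' := fun {Y Z} hY hZ => by
    change n * (Y + Z) = (Y + Z) * n
    rw [mul_add, add_mul, hY, hZ]
  zero_mem' := by simp
  smul_mem' := fun c Y hY => by
    change n * (c • Y) = (c • Y) * n
    rw [mul_smul_comm, smul_mul_assoc, hY]

theorem cl_centL (n : Module.End E V) : Cl (centL n) := by
  intro Y hY Z hZ
  have h1 : n * Y = Y * n := hY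
  have h2 : n * Z = Z * n := hZ
  change n * (Y * Z - Z * Y) = (Y * Z - Z * Y) * n
  rw [mul_sub, sub_mul, ← mul_assoc, h1, mul_assoc, h2, ← mul_assoc n, h2, mul_assoc Z, h1,
    mul_assoc, mul_assoc]

/-- A simple Lie algebra of linear maps, whose centraliser consists of scalars. -/
structure SimpleL (s : Submodule E (Module.End E V)) : Prop where
  cl : Cl s
  simple : ∀ U : Submodule E (Module.End E V), U ≤ s → U ≠ ⊥ → s ≤ stabL U → s ≤ U
  nonab : ∃ Y ∈ s, ∃ Z ∈ s, Y * Z ≠ Z * Y
  schur : ∀ n : Module.End E V, s ≤ centL n → ∃ e : E, ∀ x, n x = e • x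

/-- The set generates the Lie algebra. -/
def Gen (T₀ : Set (Module.End E V)) (s : Submodule E (Module.End E V)) : Prop :=
  ∀ S : Submodule E (Module.End E V), Cl S → T₀ ⊆ S → s ≤ S

variable {s : Submodule E (Module.End E V)} {T₀ : Set (Module.End E V)}

theorem SimpleL.exists_ne (hs : SimpleL s) (hT : Gen T₀ s) :
    ∃ Y ∈ T₀, ∃ Z ∈ T₀, Y * Z ≠ Z * Y := by
  by_contra h
  push Not at h
  obtain ⟨Y, hY, Z, hZ, hne⟩ := hs.nonab
  apply hne
  refine hT (centL Y) (cl_centL Y) (fun X hX => ?_) hZ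
  exact (hT (centL X) (cl_centL X) (fun X' hX' => h X hX X' hX') hY).symm

theorem SimpleL.eq_zero (hs : SimpleL s) (hT : Gen T₀ s) {w : Module.End E V} (hw : w ∈ s)
    (h : ∀ X ∈ T₀, X * w = w * X) : w = 0 := by
  by_contra h0
  have h1 : s ≤ centL w := hT (centL w) (cl_centL w) fun X hX => (h X hX).symm
  have h2 : s ≤ E ∙ w := by
    refine hs.simple _ ((Submodule.span_singleton_le_iff_mem _ _).2 hw)
      (fun e => h0 (Submodule.span_singleton_eq_bot.1 e)) fun Y hY u hu => ?_
    obtain ⟨c, rfl⟩ := Submodule.mem_span_singleton.1 hu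
    have h3 : w * Y = Y * w := h1 hY
    rw [mul_smul_comm, smul_mul_assoc, h3, sub_self]
    exact zero_mem _
  obtain ⟨Y, hY, Z, hZ, hne⟩ := hs.nonab
  obtain ⟨c, rfl⟩ := Submodule.mem_span_singleton.1 (h2 hY)
  have h3 : w * Z = Z * w := h1 hZ
  exact hne (by rw [mul_smul_comm, smul_mul_assoc, h3])

/-- Irreducibility descends. -/
theorem SimpleL.desc {k : Type} [Field k] [Algebra k E] (hs : SimpleL s) (hT : Gen T₀ s)
    (hk : ∀ (t : k), ∀ X ∈ T₀, algebraMap k E t • X ∈ T₀)
    {g : Set (Module.End E V)} (hg : g ⊆ s) {φ : E → E} (h : Rel g φ)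
    (h1 : ∀ e, φ e ∈ Set.range (algebraMap k E)) (h2 : φ 1 ≠ 0)
    {W : AddSubgroup (Module.End E V)} (hW : ∀ w ∈ W, w ∈ g) (hW0 : ∃ w ∈ W, w ≠ 0)
    (hTW : ∀ X ∈ T₀, ∀ w ∈ W, X * w - w * X ∈ W) : ∀ x ∈ g, x ∈ W := by
  let W' : AddSubgroup (Module.End E V) :=
    AddSubgroup.closure {z | ∃ X ∈ T₀, ∃ w ∈ W, z = X * w - w * X}
  have h3 : W' ≤ W := by
    refine (AddSubgroup.closure_le _).2 ?_
    rintro _ ⟨X, hX, w, hw, rfl⟩
    exact hTW X hX w hw
  have h4 : ∀ (t : k), ∀ w ∈ W', algebraMap k E t • w ∈ W' := by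
    intro t w hw
    induction hw using AddSubgroup.closure_induction with
    | mem z hz =>
      obtain ⟨X, hX, w, hw, rfl⟩ := hz
      exact AddSubgroup.subset_closure ⟨_, hk t X hX, w, hw, by
        rw [smul_sub, smul_mul_assoc, mul_smul_comm]⟩
    | zero => rw [smul_zero]; exact zero_mem _
    | add x y _ _ hx hy => rw [smul_add]; exact add_mem hx hy
    | neg x _ hx => rw [smul_neg]; exact neg_mem hx
  have h5 : s ≤ Submodule.span E (W' : Set (Module.End E V)) := by
    refine hs.simple _ (Submodule.span_le.2 fun w hw => hg (hW w (h3 hw))) (fun e => ?_)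
      (hT _ (cl_stabL _) fun X hX u hu => ?_)
    · obtain ⟨w, hw, hw0⟩ := hW0
      refine hw0 (hs.eq_zero hT (hg (hW w hw)) fun X hX => ?_)
      have h6 : X * w - w * X ∈ Submodule.span E (W' : Set (Module.End E V)) :=
        Submodule.subset_span (AddSubgroup.subset_closure ⟨X, hX, w, hw, rfl⟩)
      rw [e, Submodule.mem_bot] at h6
      exact sub_eq_zero.1 h6
    · induction hu using Submodule.span_induction with
      | mem w hw => exact Submodule.subset_span (AddSubgroup.subset_closure ⟨X, hX, w, h3 hw, rfl⟩)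
      | zero => simp
      | add x y _ _ hx hy =>
        convert add_mem hx hy using 1
        noncomm_ring
      | smul c x _ hx =>
        have h6 := Submodule.smul_mem _ c hx
        rwa [smul_sub, ← mul_smul_comm, ← smul_mul_assoc] at h6
  exact fun x hx => h3 (mem_of_rel h h1 h2 (fun w hw => hW w (h3 hw)) h4 hx (h5 (hg hx)))

end lie

section good

variable {k E V : Type} [Field k] [Field E] [CharZero E] [Algebra k E] [FiniteDimensional k E]
  [AddCommGroup V] [Module E V] [Module ℚ V] [IsScalarTower ℚ E V]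

/-- The restriction of scalars. -/
def res (E V : Type) [Field E] [CharZero E] [AddCommGroup V] [Module E V] [Module ℚ V]
    [IsScalarTower ℚ E V] : Module.End E V →+* Module.End ℚ V where
  toFun X := X.restrictScalars ℚ
  map_one' := rfl
  map_mul' _ _ := rfl
  map_zero' := rfl
  map_add' _ _ := rfl

theorem res_apply (X : Module.End E V) (x : V) : res E V X x = X x := rfl

theorem res_inj : Function.Injective (res E V) := fun X Y h => LinearMap.ext fun x => by
  rw [← res_apply, h, res_apply]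

/-- **The criterion.** -/
theorem good_of (T : Forms V) {s : Submodule E (Module.End E V)} {T₀ : Set (Module.End E V)}
    (hdet : ∀ g ∈ T.grp, |LinearMap.det (g : Module.End ℚ V)| = 1)
    (han : ∀ x : V, x ≠ 0 → ∃ i, T.deg i ≠ 0 ∧ T.τ i (fun _ => x) ≠ 0)
    (hglin : ∀ g ∈ T.grp, ∀ (e : E) (x : V), g (e • x) = e • g x)
    (hlin : ∀ X ∈ T.lie, ∃ Y ∈ s, res E V Y = X)
    (hs : SimpleL s) (hT : Gen T₀ s) (htan : ∀ X ∈ T₀, res E V X ∈ T.tan)
    (hk : ∀ (t : k), ∀ X ∈ T₀, algebraMap k E t • X ∈ T₀)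
    (hfix : ∀ e : E, (∀ γ : E ≃ₐ[k] E, Rel {Y | res E V Y ∈ T.lie} γ → γ e = e) →
      e ∈ Set.range (algebraMap k E)) : T.Good := by
  have hg : {Y | res E V Y ∈ T.lie} ⊆ (s : Set (Module.End E V)) := fun Y hY => by
    obtain ⟨Z, hZ, h⟩ := hlin _ hY
    exact res_inj h ▸ hZ
  obtain ⟨Y, hY, Z, hZ, hne⟩ := hs.exists_ne hT
  refine ⟨hdet, han, ⟨_, htan Y hY, fun h => hne ?_⟩, fun W hW hW0 hTW => ?_,
    ⟨_, tan_le_lie (htan Y hY), _, tan_le_lie (htan Z hZ), fun h => hne (res_inj ?_)⟩,
    fun n hn => ?_⟩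
  · have h1 : Y = 0 := res_inj (h.trans (map_zero _).symm)
    rw [h1, zero_mul, mul_zero]
  · obtain ⟨φ, h1, h2, h3⟩ := exists_rel _ hfix
    refine le_antisymm hW fun X hX => ?_
    obtain ⟨X, -, rfl⟩ := hlin X hX
    refine hs.desc hT hk hg h1 h2 h3
      (W := W.toAddSubgroup.comap (res E V).toAddMonoidHom) (fun w hw => hW hw) ?_
      (fun X hX w hw => ?_) X hX
    · obtain ⟨w, hw, hw0⟩ := (Submodule.ne_bot_iff W).1 hW0
      obtain ⟨w', -, rfl⟩ := hlin w (hW hw)
      exact ⟨w', hw, fun e => hw0 (by rw [e, map_zero])⟩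
    · exact hTW _ (htan X hX) _ hw
  · rw [map_mul, map_mul, h]
  · let n' : Module.End E V :=
      { toFun := n.1
        map_add' := map_add n.1
        map_smul' := hglin n.1 n.2 }
    obtain ⟨e, he⟩ := hs.schur n' (hT _ (cl_centL n') fun X hX =>
      res_inj (hn _ (tan_le_lie (htan X hX))))
    rw [Subgroup.mem_center_iff]
    intro g
    apply Subtype.ext
    apply LinearEquiv.ext
    intro x
    have h1 : ∀ y, n.1 y = e • y := he
    change g.1 (n.1 x) = n.1 (g.1 x)
    rw [h1, h1, hglin g.1 g.2]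

omit [Algebra k E] [FiniteDimensional k E] [Field k] in
/-- The group of linear maps over the number field. -/
theorem hasGood_of [FiniteDimensional ℚ V] (G : Subgroup (V ≃ₗ[E] V)) (T : Forms V) (hT : T.Good)
    (hglin : ∀ g ∈ T.grp, ∀ (e : E) (x : V), g (e • x) = e • g x)
    (hG : ∀ g : V ≃ₗ[E] V, g ∈ G ↔ g.restrictScalars ℚ ∈ T.grp) : HasGood G :=
  ⟨V, inferInstance, inferInstance, inferInstance, T, hT, ⟨
    { toFun := fun g => ⟨g.1.restrictScalars ℚ, (hG g.1).1 g.2⟩
      invFun := fun g => ⟨{ g.1 with map_smul' := hglin g.1 g.2 }, (hG _).2 g.2⟩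
      left_inv := fun _ => rfl
      right_inv := fun _ => rfl
      map_mul' := fun _ _ => rfl }⟩⟩

end good

end Vale.Agent.P011N.D2
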