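import Vale.Agent.P011N.D2.Gen
import Vale.Agent.P011N.D2.EForms

/-!
The trialitarian groups are groups of good families of forms: the uniform statement.
-/

open Polynomial

namespace Vale.Agent.P011N.D2

open Vale.Agent.P011 Vale.Agent.P011.MPQ Vale.Agent.P011.D4 Vale.Agent.P011.D4.Oct
  Vale.Agent.P011.D4X Vale.Agent.P011.E6

section curve

variable {L : Type} [Field L] [NumberField L] {A B : Lˣ}

/-- A rational curve in the norm-one group with a given tangent vector. -/
theorem exists_curve {w : Qt A B} (hw : w.re = 0) : ∃ (x : ℚ → Qt A B) (b : ℚ[X]),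
    Exp x 1 w ∧ b.eval 0 ≠ 0 ∧ ∀ t, b.eval t ≠ 0 → nrd (x t) = 1 := by
  obtain ⟨v, hv⟩ : ∃ v : Qt A B, v = (2⁻¹ : L) • w := ⟨_, rfl⟩
  have hv0 : v.re = 0 := by simp [hv, hw]
  have hvv : v + v = w := by
    rw [hv, ← add_smul, ← two_mul, mul_inv_cancel₀ two_ne_zero, one_smul]
  obtain ⟨h1, b, h2, h3⟩ := exp_inv (E := L) (Algebra.IsIntegral.isIntegral (nrd v))
  refine ⟨_, b, (h1.bil (smulAddHom L (Qt A B))
    ((exp_line 1 v).bil AddMonoidHom.mul (exp_line 1 v))).congr (fun _ => rfl) (by simp)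
      (by simp [hvv]), h2, fun t ht => ?_⟩
  have h4 : nrd (1 + t • v) = 1 + t ^ 2 • nrd v := by
    simp only [nrd, QuaternionAlgebra.re_add, QuaternionAlgebra.imI_add, QuaternionAlgebra.imJ_add,
      QuaternionAlgebra.imK_add, QuaternionAlgebra.re_smul, QuaternionAlgebra.imI_smul,
      QuaternionAlgebra.imJ_smul, QuaternionAlgebra.imK_smul, QuaternionAlgebra.re_one,
      QuaternionAlgebra.imI_one, QuaternionAlgebra.imJ_one, QuaternionAlgebra.imK_one, hv0,
      Rat.smul_def, Rat.cast_pow]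
    ring
  change nrd ((1 + t ^ 2 • nrd v)⁻¹ • ((1 + t • v) * (1 + t • v))) = 1
  rw [D4X.nrd_smul_q, nrd_mul, h4, ← pow_two, ← mul_pow, inv_mul_cancel₀ (h3 t ht), one_pow]

end curve

variable {k L E : Type} [Field k] [NumberField k] [Field L] [NumberField L] [Field E]
  [NumberField E] [Algebra k L] [Algebra k E] [Algebra L E] [IsScalarTower k L E] {a b c : kˣ}
  {ρ : E ≃ₐ[k] E} {α : E} {q : Lˣ}

omit [NumberField k] in
theorem exp_short [Module ℚ (OctL E a b c)] {x : ℚ → Qt (up L a) (q * up L b)}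
    {w : Qt (up L a) (q * up L b)} (hx : Exp x 1 w) (y : OctL E a b c) :
    Exp (fun t => shortFun ρ (psiL α q (x t)) y) y (dS ρ c (psiL α q w) y) := by
  let ψ : Qt (up L a) (q * up L b) →+ Qt (up E a) (up E b) :=
    AddMonoidHom.mk' (psiL α q) KCx.psiL_add
  let r : Qt (up E a) (up E b) →+ Qt (up E a) (up E b) := AddMonoidHom.mk' (qmap ρ) (qmap_add ρ)
  let s : Qt (up E a) (up E b) →+ Qt (up E a) (up E b) := starAddEquiv.toAddMonoidHom
  let i1 : Qt (up E a) (up E b) →+ OctL E a b c :=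
    AddMonoidHom.mk' (fun u => ⟨u, 0⟩) fun u v => by ext1 <;> simp
  let i2 : Qt (up E a) (up E b) →+ OctL E a b c :=
    AddMonoidHom.mk' (fun u => ⟨0, u⟩) fun u v => by ext1 <;> simp
  have h1 := hx.map ψ
  have h2 := (((h1.map (AddMonoidHom.mulRight y.fst)).bil AddMonoidHom.mul
    (((h1.map r).map r).map s)).map i1).add
    ((((h1.map r).map s).map (AddMonoidHom.mulLeft y.snd)).map i2)
  have e1 : ψ 1 = 1 := KCx.psiL_one
  have e2 : r 1 = 1 := qmap_one ρ
  have e3 : s 1 = 1 := star_one _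
  rw [e1, e2, e2, e3] at h2
  refine h2.congr (fun t => ?_) ?_ ?_
  · apply Oct.ext
    · exact (add_zero _).symm
    · exact (zero_add _).symm
  · apply Oct.ext
    · change y.fst = 1 * y.fst * 1 + 0
      rw [one_mul, mul_one, add_zero]
    · change y.snd = 0 + y.snd * 1
      rw [mul_one, zero_add]
  · apply Oct.ext
    · change psiL α q w * y.fst + y.fst * star (qmap ρ (qmap ρ (psiL α q w))) + 0 =
        psiL α q w * y.fst * 1 + 1 * y.fst * star (qmap ρ (qmap ρ (psiL α q w))) + 0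
      rw [one_mul, mul_one]
    · change 0 + 0 + y.snd * star (qmap ρ (psiL α q w)) = 0 + y.snd * star (qmap ρ (psiL α q w))
      rw [add_zero]

section forms

variable {S : Type} [Finite S] {A : S → OctL E a b c → OctL E a b c}
  [Module ℚ (OctL E a b c)]

/-- The degrees. -/
def tDeg (S : Type) : Option (Option S) → ℕ := fun o => o.elim 3 fun _ => 2

omit [NumberField k] [NumberField E] [Module ℚ (OctL E a b c)] in
theorem ad1 (u v y z : OctL E a b c) :
    bil (tri ρ (u + v) y) z = bil (tri ρ u y) z + bil (tri ρ v y) z := by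
  rw [tri_add_left, bil_add_left]

omit [NumberField k] [NumberField E] [Module ℚ (OctL E a b c)] in
theorem ad2 (u v y z : OctL E a b c) :
    bil (tri ρ u (v + y)) z = bil (tri ρ u v) z + bil (tri ρ u y) z := by
  rw [tri_add_right, bil_add_left]

omit [NumberField k] [NumberField E] [Module ℚ (OctL E a b c)] [Finite S] in
theorem ad3 (hA1 : ∀ s x y, A s (x + y) = A s x + A s y) (s : S) (u v y : OctL E a b c) :
    bil (A s (u + v)) y = bil (A s u) y + bil (A s v) y := by
  rw [hA1, bil_add_left]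

/-- The forms. -/
def tPhi (ρ : E ≃ₐ[k] E) (hA1 : ∀ s x y, A s (x + y) = A s x + A s y) :
    ∀ i, MultilinearMap ℚ (fun _ : Fin (tDeg S i) => OctL E a b c) E
  | none => ml3 (fun x y z => bil (tri ρ x y) z) ad1 ad2 fun _ _ => bil_add_right _
  | some none => ml2 bil bil_add_left bil_add_right
  | some (some s) => ml2 (fun x y => bil (A s x) y) (ad3 hA1 s) fun _ => bil_add_right _

variable {hA1 : ∀ s x y, A s (x + y) = A s x + A s y}

omit [NumberField k] in
theorem mem_grp_t {g : OctL E a b c ≃ₗ[ℚ] OctL E a b c} :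
    g ∈ (eForms (tDeg S) (tPhi ρ hA1)).grp ↔
      (∀ x y z, bil (tri ρ (g x) (g y)) (g z) = bil (tri ρ x y) z) ∧
        (∀ x y, bil (g x) (g y) = bil x y) ∧ ∀ s x y, bil (A s (g x)) (g y) = bil (A s x) y := by
  rw [mem_grp_e, Option.forall, Option.forall]
  exact and_congr (ml3_grp (fun x y z => bil (tri ρ x y) z) ad1 ad2 (fun _ _ => bil_add_right _) g)
    (and_congr (ml2_grp bil bil_add_left bil_add_right g)
      (forall_congr' fun s => ml2_grp (fun x y => bil (A s x) y) (ad3 hA1 s)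
        (fun _ => bil_add_right _) g))

omit [NumberField k] in
theorem mem_lie_t {X : Module.End ℚ (OctL E a b c)} :
    X ∈ (eForms (tDeg S) (tPhi ρ hA1)).lie ↔
      (∀ x y z, bil (tri ρ (X x) y) z + bil (tri ρ x (X y)) z + bil (tri ρ x y) (X z) = 0) ∧
        (∀ x y, bil (X x) y + bil x (X y) = 0) ∧
        ∀ s x y, bil (A s (X x)) y + bil (A s x) (X y) = 0 := by
  rw [mem_lie_e, Option.forall, Option.forall]
  exact and_congr (ml3_lie (fun x y z => bil (tri ρ x y) z) ad1 ad2 (fun _ _ => bil_add_right _) X)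
    (and_congr (ml2_lie bil bil_add_left bil_add_right X)
      (forall_congr' fun s => ml2_lie (fun x y => bil (A s x) y) (ad3 hA1 s)
        (fun _ => bil_add_right _) X))

omit [NumberField k] in
theorem lin_t (g : OctL E a b c ≃ₗ[ℚ] OctL E a b c) (hg : g ∈ (eForms (tDeg S) (tPhi ρ hA1)).grp)
    (e : E) (x : OctL E a b c) : g (e • x) = e • g x := by
  refine eq_of_bil fun z => ?_
  obtain ⟨z, rfl⟩ := g.surjective z
  rw [(mem_grp_t.1 hg).2.1, bil_smul_left, bil_smul_left, (mem_grp_t.1 hg).2.1]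

omit [NumberField k] in
theorem det_t [FiniteDimensional ℚ (OctL E a b c)] (g : OctL E a b c ≃ₗ[ℚ] OctL E a b c)
    (hg : g ∈ (eForms (tDeg S) (tPhi ρ hA1)).grp) :
    |LinearMap.det (g : Module.End ℚ (OctL E a b c))| = 1 :=
  det_of_eform (K := E) bil bil_add_left bil_add_right (fun t x y => bil_smul_right t x y)
    (fun _ => eq_zero_of_bil) _ (mem_grp_t.1 hg).2.1

omit [NumberField k] in
theorem aniso_t
    (han : ∀ x, bil x x = 0 → (∀ s, bil (A s x) x = 0) → bil (tri ρ x x) x = 0 → x = 0)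
    (x : OctL E a b c) (hx : x ≠ 0) : ∃ p, (eForms (tDeg S) (tPhi ρ hA1)).deg p ≠ 0 ∧
      (eForms (tDeg S) (tPhi ρ hA1)).τ p (fun _ => x) ≠ 0 := by
  refine aniso_e (fun x hx => ?_) x hx
  by_contra h
  push Not at h
  exact hx (han x (h (some none) two_ne_zero) (fun s => h (some (some s)) two_ne_zero)
    (h none three_ne_zero))

variable [IsScalarTower ℚ E (OctL E a b c)]

omit [NumberField k] in
theorem lie_t (X : Module.End ℚ (OctL E a b c)) (hX : X ∈ (eForms (tDeg S) (tPhi ρ hA1)).lie) :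
    ∃ Y ∈ so (bilB (up E a) (up E b) (up E c)), res E _ Y = X := by
  have h1 := (mem_lie_t.1 hX).2.1
  refine ⟨{ toFun := X, map_add' := map_add X, map_smul' := fun e x => eq_of_bil fun z => ?_ },
    h1, rfl⟩
  have h2 := h1 (e • x) z
  rw [bil_smul_left] at h2
  rw [RingHom.id_apply, bil_smul_left]
  linear_combination h2 - e * h1 x z

omit [NumberField k] in
theorem mem_t (hρ : ∀ x, ρ (ρ (ρ x)) = x) (g : OctL E a b c ≃ₗ[E] OctL E a b c) :
    ((∀ x y, g (tri ρ x y) = tri ρ (g x) (g y)) ∧ ∀ s x, g (A s x) = A s (g x)) ↔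
      g.restrictScalars ℚ ∈ (eForms (tDeg S) (tPhi ρ hA1)).grp := by
  rw [mem_grp_t]
  simp only [LinearEquiv.restrictScalars_apply]
  constructor
  · rintro ⟨h1, h2⟩
    have h3 := bil_of_tri hρ h1
    exact ⟨fun x y z => by rw [← h1, h3], h3, fun s x y => by rw [← h2, h3]⟩
  · rintro ⟨h1, h2, h3⟩
    refine ⟨fun x y => eq_of_bil fun z => ?_, fun s x => eq_of_bil fun z => ?_⟩
    · obtain ⟨z, rfl⟩ := g.surjective z
      rw [h1, h2]
    · obtain ⟨z, rfl⟩ := g.surjective z
      rw [h2, h3]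

omit [NumberField k] in
theorem rel_t1 (hρ : ∀ x, ρ (ρ (ρ x)) = x) :
    Rel {Y | res E (OctL E a b c) Y ∈ (eForms (tDeg S) (tPhi ρ hA1)).lie} ρ := by
  refine rel_rho hρ two_ne_zero (fun X hX x y => eq_of_bil fun z => ?_)
    fun X hX => (mem_lie_t.1 hX).2.1
  obtain ⟨h1, h2, -⟩ := mem_lie_t.1 hX
  simp only [res_apply] at h1 h2
  rw [bil_add_left]
  linear_combination h2 (tri ρ x y) z - h1 x y z

omit [NumberField k] in
theorem rel_t2 {θ : E → E} {s : S} (hA2 : ∀ (t : E) x, A s (t • x) = θ t • A s x)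
    (hA3 : Function.Surjective (A s)) :
    Rel {Y | res E (OctL E a b c) Y ∈ (eForms (tDeg S) (tPhi ρ hA1)).lie} θ := by
  refine rel_semi (hA1 s) hA2 hA3 fun X hX x => eq_of_bil fun z => ?_
  obtain ⟨-, h2, h3⟩ := mem_lie_t.1 hX
  simp only [res_apply] at h2 h3
  linear_combination h2 (A s x) z - h3 s x z

omit [NumberField k] in
theorem tan_t [FiniteDimensional ℚ (OctL E a b c)] {T : Forms (OctL E a b c)}
    (hsh : ∀ (b' c' : kˣ) (j l : Oct a b c) (h : Trip a b' c' gi j l)
      (x : Qt (up L a) (q * up L b')), nrd x = 1 →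
      ∃ g : OctL E a b c ≃ₗ[E] OctL E a b c, g.restrictScalars ℚ ∈ T.grp ∧
        ∀ y, g (tripO E h y) = tripO E h (shortFun ρ (psiL α q x) y)) :
    ∀ X ∈ TS a b c ρ α q, res E _ X ∈ T.tan := by
  rintro _ ⟨b', c', j, l, h, w, hw, rfl⟩
  letI : Module ℚ (OctL E a b' c') := Module.compHom _ (algebraMap ℚ E)
  obtain ⟨x, p, h1, h2, h3⟩ := exists_curve hw
  let u : ℚ → Module.End E (OctL E a b' c') := fun t =>
    { toFun := shortFun ρ (psiL α q (x t))
      map_add' := Em.shortFun_add ρ _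
      map_smul' := Em.shortFun_smul ρ _ }
  refine mem_tan (u := fun t => res E _ ((tripO E h).conj (u t))) (exp_of_apply fun y => ?_) h2
    fun t ht => ?_
  · exact ((exp_short (ρ := ρ) (α := α) h1 ((tripO E h).symm y)).map
      (tripO E h).toLinearMap.toAddMonoidHom).congr (fun _ => rfl)
        ((tripO E h).apply_symm_apply y).symm rfl
  · obtain ⟨g, hg, hg'⟩ := hsh b' c' j l h (x t) (h3 t ht)
    refine ⟨_, hg, LinearMap.ext fun y => ?_⟩
    have h4 := hg' ((tripO E h).symm y)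
    rw [LinearEquiv.apply_symm_apply] at h4
    exact h4

end forms

/-- **The uniform statement.** -/
theorem hasGood_tri {S : Type} [Finite S] (A : S → OctL E a b c → OctL E a b c)
    (θ : S → E ≃ₐ[k] E) (G : Subgroup (OctL E a b c ≃ₗ[E] OctL E a b c))
    (hρ : ∀ x, ρ (ρ (ρ x)) = x) (hα : α ≠ 0) (hρα : ρ α = α)
    (ht : ∃ t : L, ρ (algebraMap L E t) ≠ algebraMap L E t)
    (hA1 : ∀ s x y, A s (x + y) = A s x + A s y)
    (hA2 : ∀ s (t : E) x, A s (t • x) = θ s t • A s x) (hA3 : ∀ s, Function.Surjective (A s))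
    (hG : ∀ g, g ∈ G ↔ (∀ x y, g (tri ρ x y) = tri ρ (g x) (g y)) ∧ ∀ s x, g (A s x) = A s (g x))
    (hfix : ∀ e : E, ρ e = e → (∀ s, θ s e = e) → e ∈ Set.range (algebraMap k E))
    (han : ∀ x, bil x x = 0 → (∀ s, bil (A s x) x = 0) → bil (tri ρ x x) x = 0 → x = 0)
    (hsh : ∀ (b' c' : kˣ) (j l : Oct a b c) (h : Trip a b' c' gi j l)
      (x : Qt (up L a) (q * up L b')), nrd x = 1 →
      ∃ g ∈ G, ∀ y, g (tripO E h y) = tripO E h (shortFun ρ (psiL α q x) y)) : HasGood G := by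
  letI : Module ℚ (OctL E a b c) := Module.compHom _ (algebraMap ℚ E)
  have : IsScalarTower ℚ E (OctL E a b c) := ⟨fun t e x => by
    rw [Algebra.smul_def, mul_smul]
    rfl⟩
  have : Module.Finite E (OctL E a b c) := oct_finite
  have : Module.Finite ℚ (OctL E a b c) := Module.Finite.trans E _
  have : FiniteDimensional k E := Module.Finite.of_restrictScalars_finite ℚ k E
  have hG' := fun g => (hG g).trans (mem_t (hA1 := hA1) hρ g)
  refine hasGood_of G _ (good_of (k := k) (eForms (tDeg S) (tPhi ρ hA1)) det_t (aniso_t han) lin_t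
    lie_t (orth_oct two_ne_zero).simpleL (gen_ts (q := q) hρ hα hρα ht) (tan_t fun b' c' j l h x hx => ?_)
    (fun t X => ts_smul t) fun e he => hfix e (he ρ (rel_t1 hρ))
      fun s => he (θ s) (rel_t2 (hA2 s) (hA3 s))) lin_t hG'
  obtain ⟨g, hg, hg'⟩ := hsh b' c' j l h x hx
  exact ⟨g, (hG' g).1 hg, hg'⟩

end Vale.Agent.P011N.D2
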