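import Vale.Agent.P011N.D2.So
import Vale.Agent.P011.D4.Emb
import Vale.Agent.P011.D4X.H493.Star

/-!
The orthogonal Lie algebra of the norm form of an octonion algebra; uniqueness in the principle of
local triality.
-/

namespace Vale.Agent.P011N.D2

open Vale.Agent.P011 Vale.Agent.P011.MPQ Vale.Agent.P011.D4 Vale.Agent.P011.D4.Oct
  Vale.Agent.P011.D4X

section oct

variable {F : Type} [Field F] {a b c : Fˣ}

/-- The polar form of the norm. -/
def bilB (a b c : Fˣ) : LinearMap.BilinForm F (Oct a b c) :=
  LinearMap.mk₂ F bil bil_add_left bil_smul_left bil_add_right fun t x y => bil_smul_right t x y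

theorem bilB_apply (x y : Oct a b c) : bilB a b c x y = bil x y := rfl

/-- The coordinates. -/
def coE (a b c : Fˣ) : Oct a b c ≃ₗ[F] (Fin 8 → F) where
  toFun := Em.oc
  invFun v := ⟨⟨v 0, v 1, v 2, v 3⟩, ⟨v 4, v 5, v 6, v 7⟩⟩
  left_inv _ := rfl
  right_inv v := by
    funext m
    fin_cases m <;> rfl
  map_add' x y := funext (Em.oc_add x y)
  map_smul' t x := funext (Em.oc_smul t x)

/-- The standard basis. -/
noncomputable def obB (a b c : Fˣ) : Module.Basis (Fin 8) F (Oct a b c) :=
  Module.Basis.ofEquivFun (coE a b c)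

theorem obB_apply (m : Fin 8) : obB a b c m = Em.ob m := by
  have h : ∀ v, (coE a b c).symm v = ⟨⟨v 0, v 1, v 2, v 3⟩, ⟨v 4, v 5, v 6, v 7⟩⟩ := fun _ => rfl
  rw [obB, Module.Basis.coe_ofEquivFun]
  fin_cases m <;> apply ext8 <;> simp [h, Em.ob]

theorem oct_finite : Module.Finite F (Oct a b c) := Module.Finite.of_basis (obB a b c)

theorem orth_oct (h2 : (2 : F) ≠ 0) : Orth (bilB a b c) (obB a b c) where
  two := h2
  symm := bil_comm
  orth i j hij := by
    rw [obB_apply, obB_apply, bilB_apply, bil_eq]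
    fin_cases i <;> fin_cases j <;> first | exact absurd rfl hij | simp [Em.ob]
  ne i := by
    rw [obB_apply, bilB_apply, bil_eq]
    fin_cases i <;> simp [Em.ob, h2]
  five x y z w := by
    have h : ({x, y, z, w} : Finset (Fin 8)).card < (Finset.univ : Finset (Fin 8)).card :=
      lt_of_le_of_lt Finset.card_le_four (by simp)
    obtain ⟨p, -, hp⟩ := Finset.exists_mem_notMem_of_card_lt_card h
    simp only [Finset.mem_insert, Finset.mem_singleton, not_or] at hp
    exact ⟨p, hp⟩

/-- The nucleus consists of scalars. -/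
theorem nucleus (h2 : (2 : F) ≠ 0) {z : Oct a b c} (h : ∀ u v, (u * z) * v = u * (z * v))
    (h1 : bil z 1 = 0) : z = 0 := by
  have ha := a.ne_zero
  have hb := b.ne_zero
  have e1 := congrArg Oct.snd (h gi gj)
  have e2 := congrArg Oct.snd (h gi gl)
  have e3 := congrArg Oct.snd (h gj gl)
  have f1 := congrArg QuaternionAlgebra.re e1
  have f2 := congrArg QuaternionAlgebra.imI e1
  have f3 := congrArg QuaternionAlgebra.imJ e1
  have f4 := congrArg QuaternionAlgebra.imK e1
  have f5 := congrArg QuaternionAlgebra.imJ e2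
  have f6 := congrArg QuaternionAlgebra.imK e2
  have f7 := congrArg QuaternionAlgebra.imK e3
  rw [bil_eq] at h1
  simp [gi, gj, gl] at f1 f2 f3 f4 f5 f6 f7 h1
  have key : ∀ {s t : F}, s ≠ 0 → 2 * s * t = 0 → t = 0 := fun hs h =>
    (mul_eq_zero.1 h).resolve_left (mul_ne_zero h2 hs)
  exact ext8 (h1.resolve_left h2) (key one_ne_zero (by linear_combination -f7))
    (key one_ne_zero (by linear_combination f6)) (key ha (by linear_combination f5))
    (key one_ne_zero (by linear_combination -f4)) (key ha (by linear_combination -f3))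
    (key hb (by linear_combination f2)) (key (mul_ne_zero ha hb) (by linear_combination f1))

end oct

section tri

variable {k E : Type} [Field k] [Field E] [Algebra k E] {a b c : kˣ} {ρ : E ≃ₐ[k] E}
  (hρ : ∀ x, ρ (ρ (ρ x)) = x)

include hρ

/-- The automorphisms of the cyclic composition preserve the polar form of the norm. -/
theorem bil_of_tri {g : OctL E a b c ≃ₗ[E] OctL E a b c}
    (hg : ∀ x y, g (tri ρ x y) = tri ρ (g x) (g y)) (x y : OctL E a b c) :
    bil (g x) (g y) = bil x y := by
  have h1 : ∀ x, norm (g x) = norm x := by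
    intro x
    have h2 := congrArg g (Orb.tri_tri hρ x 1)
    rw [hg, hg, Orb.tri_tri hρ, map_smul] at h2
    have h3 : g 1 ≠ 0 := by
      intro h
      have h4 : (1 : OctL E a b c) = 0 := g.injective (by rw [h, map_zero])
      have h5 := congrArg (fun x : OctL E a b c => x.fst.re) h4
      simp at h5
    exact ρ.injective (ρ.injective (smul_left_injective E h3 h2))
  rw [bil, bil, ← map_add, h1, h1, h1]

/-- Uniqueness in the principle of local triality. -/
theorem tri_unique (h2 : (2 : E) ≠ 0) {Y Z : OctL E a b c → OctL E a b c}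
    (h : ∀ x y, tri ρ (Y x) y + tri ρ x (Z y) = 0) (hZ : bil (Z 1) 1 = 0)
    (y : OctL E a b c) : Z y = 0 := by
  have e1 : ∀ u : OctL E a b c, omap ρ (star (star (omap ρ (omap ρ u)))) = u := fun u => by
    rw [star_star, Orb.omap_cube hρ]
  have e2 : ∀ u : OctL E a b c, omap ρ (omap ρ (star (star (omap ρ u)))) = u := fun u => by
    rw [star_star, Orb.omap_cube hρ]
  obtain ⟨z, hz⟩ : ∃ z, z = omap ρ (omap ρ (star (Z 1))) := ⟨_, rfl⟩
  have h1 : ∀ x, omap ρ (star (Y x)) = -(omap ρ (star x) * z) := fun x => by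
    have h3 := h x 1
    rw [tri, tri, star_one, omap_one, omap_one, mul_one, ← hz] at h3
    exact eq_neg_of_add_eq_zero_left h3
  have h3 : ∀ y, omap ρ (omap ρ (star (Z y))) = z * omap ρ (omap ρ (star y)) := fun y => by
    have h4 := h 1 y
    rw [tri, tri, h1, star_one, omap_one, one_mul, one_mul, neg_mul] at h4
    exact (neg_add_eq_zero.1 h4).symm
  have h4 : z = 0 := by
    refine nucleus h2 (fun u v => ?_) ?_
    · have h5 := h (star (omap ρ (omap ρ u))) (star (omap ρ v))
      rw [tri, tri, h1, h3, e1, e2, neg_mul] at h5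
      exact neg_add_eq_zero.1 h5
    · have h5 := bil_omap ρ (omap ρ (star (Z 1))) (omap ρ 1)
      rw [bil_omap ρ (star (Z 1)), bil_star_left, star_one, hZ, map_zero, map_zero, omap_one,
        omap_one] at h5
      rw [hz, h5]
  have h5 := congrArg (fun u => star (omap ρ u)) (h3 y)
  simp only [h4, zero_mul, Orb.omap_cube hρ, star_star, omap_zero, star_zero] at h5
  exact h5

/-- The automorphism `ρ` preserves the relations between derivations. -/
theorem rel_rho (h2 : (2 : E) ≠ 0) {g : Set (Module.End E (OctL E a b c))}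
    (h1 : ∀ X ∈ g, ∀ x y, X (tri ρ x y) = tri ρ (X x) y + tri ρ x (X y))
    (h3 : ∀ X ∈ g, X ∈ so (bilB (up E a) (up E b) (up E c))) : Rel g ρ := by
  intro ι _ e w hw h
  have h4 : ∑ i, ρ (e i) • w i ∈ so (bilB (up E a) (up E b) (up E c)) :=
    sum_mem fun i _ => Submodule.smul_mem _ _ (h3 _ (hw i))
  refine LinearMap.ext (tri_unique hρ h2 (Y := fun x => (∑ i, ρ (ρ (e i)) • w i) x)
    (Z := fun x => (∑ i, ρ (e i) • w i) x) (fun x y => ?_) ?_)
  · have h5 := congrArg (fun f : Module.End E (OctL E a b c) => f (tri ρ x y)) h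
    let A : OctL E a b c →+ OctL E a b c :=
      AddMonoidHom.mk' (fun u => tri ρ u y) fun u v => tri_add_left u v y
    let B : OctL E a b c →+ OctL E a b c := AddMonoidHom.mk' (tri ρ x) (tri_add_right x)
    simp only [LinearMap.sum_apply, LinearMap.smul_apply, LinearMap.zero_apply] at h5 ⊢
    change A _ + B _ = 0
    rw [map_sum, map_sum, ← Finset.sum_add_distrib, ← h5]
    refine Finset.sum_congr rfl fun i _ => ?_
    change tri ρ _ y + tri ρ x _ = _
    rw [tri_smul_left, tri_smul_right, hρ, h1 _ (hw i), smul_add]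
  · have h5 := h4 1 1
    rw [bilB_apply, bilB_apply, bil_comm 1, ← two_mul] at h5
    exact (mul_eq_zero.1 h5).resolve_left h2

end tri

/-- A semilinear map which commutes with the elements of `g` gives an automorphism which
preserves the relations. -/
theorem rel_semi {E V : Type} [Field E] [AddCommGroup V] [Module E V] {g : Set (Module.End E V)}
    {θ : E → E} {A : V → V} (h1 : ∀ x y, A (x + y) = A x + A y)
    (h2 : ∀ (t : E) x, A (t • x) = θ t • A x) (h3 : Function.Surjective A)
    (h4 : ∀ X ∈ g, ∀ x, X (A x) = A (X x)) : Rel g θ := by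
  intro ι _ e w hw h
  refine LinearMap.ext fun y => ?_
  obtain ⟨x, rfl⟩ := h3 y
  have h5 := congrArg (fun f : Module.End E V => AddMonoidHom.mk' A h1 (f x)) h
  simp only [LinearMap.sum_apply, LinearMap.smul_apply, LinearMap.zero_apply, map_sum,
    map_zero] at h5 ⊢
  rw [← h5]
  refine Finset.sum_congr rfl fun i _ => ?_
  rw [h4 _ (hw i), AddMonoidHom.mk'_apply, h2]

end Vale.Agent.P011N.D2
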