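import Vale.Agent.P011N.Iface

/-!
Rational functions with values in rational vector spaces, and expansions to the first order.
-/

open Polynomial

namespace Vale.Agent.P011N.D2

section pol

variable {M N P : Type} [AddCommGroup M] [Module ℚ M] [AddCommGroup N] [Module ℚ N]
  [AddCommGroup P] [Module ℚ P]

/-- The polynomial functions. -/
def Pol (M : Type) [AddCommGroup M] [Module ℚ M] : AddSubmonoid (ℚ → M) :=
  AddSubmonoid.closure {f | ∃ (j : ℕ) (c : M), f = fun t => t ^ j • c}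

theorem pol_mono (j : ℕ) (c : M) : (fun t : ℚ => t ^ j • c) ∈ Pol M :=
  AddSubmonoid.subset_closure ⟨j, c, rfl⟩

theorem pol_const (c : M) : (fun _ : ℚ => c) ∈ Pol M := by
  simpa using pol_mono 0 c

theorem pol_add {f g : ℚ → M} (hf : f ∈ Pol M) (hg : g ∈ Pol M) :
    (fun t => f t + g t) ∈ Pol M := add_mem hf hg

theorem pol_sum {ι : Type} (s : Finset ι) {f : ι → ℚ → M} (hf : ∀ i ∈ s, f i ∈ Pol M) :
    (fun t => ∑ i ∈ s, f i t) ∈ Pol M := by
  have h := sum_mem hf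
  convert h using 1
  funext t
  rw [Finset.sum_apply]

theorem pol_bil (B : M →+ N →+ P) {f : ℚ → M} {g : ℚ → N} (hf : f ∈ Pol M) (hg : g ∈ Pol N) :
    (fun t => B (f t) (g t)) ∈ Pol P := by
  induction hf using AddSubmonoid.closure_induction with
  | zero => simpa using pol_const (0 : P)
  | add f f' _ _ h1 h2 => simpa using pol_add h1 h2
  | mem f hf =>
    obtain ⟨i, c, rfl⟩ := hf
    induction hg using AddSubmonoid.closure_induction with
    | zero => simpa using pol_const (0 : P)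
    | add g g' _ _ h1 h2 => simpa using pol_add h1 h2
    | mem g hg =>
      obtain ⟨j, d, rfl⟩ := hg
      convert pol_mono (i + j) (B c d) using 2 with t
      rw [map_rat_smul (B _), ← AddMonoidHom.flip_apply B, map_rat_smul, AddMonoidHom.flip_apply,
        smul_smul, ← pow_add, add_comm]

theorem pol_eval (b : ℚ[X]) : (fun t => b.eval t) ∈ Pol ℚ := by
  have h := pol_sum (Finset.range (b.natDegree + 1))
    (f := fun j t => t ^ j • b.coeff j) fun j _ => pol_mono j _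
  convert h using 2 with t
  rw [eval_eq_sum_range]
  exact Finset.sum_congr rfl fun j _ => by rw [smul_eq_mul, mul_comm]

theorem pol_smul (b : ℚ[X]) {f : ℚ → M} (hf : f ∈ Pol M) : (fun t => b.eval t • f t) ∈ Pol M :=
  pol_bil (smulAddHom ℚ M) (pol_eval b) hf

theorem pol_exists {f : ℚ → M} (hf : f ∈ Pol M) :
    ∃ (n : ℕ) (c : Fin n → M), ∀ t, f t = ∑ j : Fin n, t ^ (j : ℕ) • c j := by
  have h : ∃ c : ℕ →₀ M, ∀ t, f t = c.sum fun j m => t ^ j • m := by
    induction hf using AddSubmonoid.closure_induction with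
    | zero => exact ⟨0, fun t => by simp⟩
    | add f g _ _ h1 h2 =>
      obtain ⟨c, hc⟩ := h1
      obtain ⟨d, hd⟩ := h2
      refine ⟨c + d, fun t => ?_⟩
      rw [Finsupp.sum_add_index' (by simp) (by simp), Pi.add_apply, hc, hd]
    | mem f hf =>
      obtain ⟨j, c, rfl⟩ := hf
      exact ⟨Finsupp.single j c, fun t => by rw [Finsupp.sum_single_index (by simp)]⟩
  obtain ⟨c, hc⟩ := h
  refine ⟨c.support.sup id + 1, fun j => c j, fun t => ?_⟩
  rw [hc, Finsupp.sum_of_support_subset (s := Finset.range (c.support.sup id + 1)) _ _ _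
    (by simp), Finset.sum_range]
  intro j hj
  exact Finset.mem_range.2 (Nat.lt_succ_of_le (Finset.le_sup (f := id) hj))

theorem isRat_iff {f : ℚ → M} : IsRat f ↔ ∃ (b : ℚ[X]) (p : ℚ → M), b.eval 0 ≠ 0 ∧ p ∈ Pol M ∧
    ∀ t, b.eval t ≠ 0 → b.eval t • f t = p t := by
  constructor
  · rintro ⟨b, n, c, h0, h1⟩
    exact ⟨b, _, h0, pol_sum Finset.univ fun (j : Fin n) _ => pol_mono (j : ℕ) (c j), h1⟩
  · rintro ⟨b, p, h0, hp, h1⟩
    obtain ⟨n, c, hc⟩ := pol_exists hp
    exact ⟨b, n, c, h0, fun t ht => (h1 t ht).trans (hc t)⟩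

theorem rat_of_pol {f : ℚ → M} (hf : f ∈ Pol M) : IsRat f :=
  isRat_iff.2 ⟨1, f, by simp, hf, fun t _ => by simp⟩

theorem rat_const (c : M) : IsRat fun _ : ℚ => c := rat_of_pol (pol_const c)

theorem rat_id : IsRat fun t : ℚ => t := rat_of_pol (by simpa using pol_mono 1 (1 : ℚ))

theorem rat_add {f g : ℚ → M} (hf : IsRat f) (hg : IsRat g) : IsRat fun t => f t + g t := by
  obtain ⟨b, p, h0, hp, h1⟩ := isRat_iff.1 hf
  obtain ⟨b', p', h0', hp', h1'⟩ := isRat_iff.1 hg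
  refine isRat_iff.2 ⟨b * b', _, by rw [eval_mul]; exact mul_ne_zero h0 h0',
    pol_add (pol_smul b' hp) (pol_smul b hp'), fun t ht => ?_⟩
  rw [eval_mul] at ht ⊢
  rw [← h1 t (left_ne_zero_of_mul ht), ← h1' t (right_ne_zero_of_mul ht), smul_add, smul_smul,
    smul_smul, mul_comm (b'.eval t)]

theorem rat_bil (B : M →+ N →+ P) {f : ℚ → M} {g : ℚ → N} (hf : IsRat f) (hg : IsRat g) :
    IsRat fun t => B (f t) (g t) := by
  obtain ⟨b, p, h0, hp, h1⟩ := isRat_iff.1 hf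
  obtain ⟨b', p', h0', hp', h1'⟩ := isRat_iff.1 hg
  refine isRat_iff.2 ⟨b * b', _, by rw [eval_mul]; exact mul_ne_zero h0 h0',
    pol_bil B hp hp', fun t ht => ?_⟩
  rw [eval_mul] at ht ⊢
  rw [← h1 t (left_ne_zero_of_mul ht), ← h1' t (right_ne_zero_of_mul ht), map_rat_smul (B _),
    ← AddMonoidHom.flip_apply B (b.eval t • f t), map_rat_smul, AddMonoidHom.flip_apply, smul_smul,
    mul_comm]

theorem rat_smul {f : ℚ → ℚ} {g : ℚ → M} (hf : IsRat f) (hg : IsRat g) :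
    IsRat fun t => f t • g t := rat_bil (smulAddHom ℚ M) hf hg

theorem rat_map (φ : M →+ N) {f : ℚ → M} (hf : IsRat f) : IsRat fun t => φ (f t) := by
  have h := rat_bil ((smulAddHom ℚ N).flip.comp φ) hf (rat_const (1 : ℚ))
  simpa using h

theorem rat_sum {ι : Type} (s : Finset ι) {f : ι → ℚ → M} (hf : ∀ i ∈ s, IsRat (f i)) :
    IsRat fun t => ∑ i ∈ s, f i t := by
  classical
  induction s using Finset.induction_on with
  | empty => simpa using rat_const (0 : M)
  | insert i s hi ih =>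
    simp only [Finset.sum_insert hi]
    exact rat_add (hf i (Finset.mem_insert_self _ _))
      (ih fun j hj => hf j (Finset.mem_insert_of_mem hj))

/-- A polynomial function which vanishes outside a finite set vanishes at zero. -/
theorem pol_zero {p : ℚ → M} (hp : p ∈ Pol M) {b : ℚ[X]} (hb : b ≠ 0)
    (h : ∀ t, b.eval t ≠ 0 → p t = 0) : p 0 = 0 := by
  rw [← Module.forall_dual_apply_eq_zero_iff ℚ]
  intro φ
  obtain ⟨n, c, hc⟩ := pol_exists hp
  have h1 : ∀ t, φ (p t) = (∑ j : Fin n, C (φ (c j)) * X ^ (j : ℕ) : ℚ[X]).eval t := by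
    intro t
    rw [hc, map_sum, eval_finsetSum]
    refine Finset.sum_congr rfl fun j _ => ?_
    rw [map_smul, eval_mul, eval_C, eval_pow, eval_X, smul_eq_mul, mul_comm]
  have h2 : (∑ j : Fin n, C (φ (c j)) * X ^ (j : ℕ) : ℚ[X]) * b = 0 := by
    apply Polynomial.funext
    intro t
    rw [eval_mul, ← h1, eval_zero]
    by_cases ht : b.eval t = 0
    · rw [ht, mul_zero]
    · rw [h t ht, map_zero, zero_mul]
  rw [h1, (mul_eq_zero.1 h2).resolve_right hb, eval_zero]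

theorem rat_lim {r : ℚ → M} (hr : IsRat r) {b : ℚ[X]} (hb : b.eval 0 ≠ 0) {c : M}
    (h : ∀ t, b.eval t ≠ 0 → t ≠ 0 → c + t • r t = 0) : c = 0 := by
  obtain ⟨b', p, h0, hp, h1⟩ := isRat_iff.1 hr
  have hb1 : b ≠ 0 := fun e => hb (by rw [e, eval_zero])
  have hb2 : b' ≠ 0 := fun e => h0 (by rw [e, eval_zero])
  have h2 := pol_zero (pol_add (pol_smul b' (pol_const c)) (pol_smul X hp))
    (mul_ne_zero (mul_ne_zero hb1 hb2) X_ne_zero) fun t ht => by
      rw [eval_mul, eval_mul, eval_X] at ht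
      have h3 := left_ne_zero_of_mul ht
      rw [eval_X, ← h1 t (right_ne_zero_of_mul h3), smul_comm t, ← smul_add,
        h t (left_ne_zero_of_mul h3) (right_ne_zero_of_mul ht), smul_zero]
  rw [eval_X, zero_smul, add_zero] at h2
  exact (smul_eq_zero.1 h2).resolve_left h0

/-- The expansion of a rational function to the first order. -/
def Exp (f : ℚ → M) (x₀ x₁ : M) : Prop :=
  ∃ (g : ℚ → M) (b : ℚ[X]), IsRat g ∧ b.eval 0 ≠ 0 ∧
    ∀ t, b.eval t ≠ 0 → f t = x₀ + t • x₁ + t ^ 2 • g t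

theorem exp_const (c : M) : Exp (fun _ => c) c 0 :=
  ⟨fun _ => 0, 1, rat_const 0, by simp, fun t _ => by simp⟩

theorem exp_line (c d : M) : Exp (fun t => c + t • d) c d :=
  ⟨fun _ => 0, 1, rat_const 0, by simp, fun t _ => by simp⟩

theorem Exp.congr {f f' : ℚ → M} {x₀ x₁ y₀ y₁ : M} (h : Exp f x₀ x₁) (h0 : ∀ t, f' t = f t)
    (h1 : y₀ = x₀) (h2 : y₁ = x₁) : Exp f' y₀ y₁ := by
  rw [funext h0, h1, h2]
  exact h

theorem Exp.add {f f' : ℚ → M} {x₀ x₁ y₀ y₁ : M} (h : Exp f x₀ x₁) (h' : Exp f' y₀ y₁) :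
    Exp (fun t => f t + f' t) (x₀ + y₀) (x₁ + y₁) := by
  obtain ⟨g, b, h1, h2, h3⟩ := h
  obtain ⟨g', b', h1', h2', h3'⟩ := h'
  refine ⟨_, b * b', rat_add h1 h1', by rw [eval_mul]; exact mul_ne_zero h2 h2', fun t ht => ?_⟩
  rw [eval_mul] at ht
  beta_reduce
  rw [h3 t (left_ne_zero_of_mul ht), h3' t (right_ne_zero_of_mul ht)]
  module

theorem Exp.bil (B : M →+ N →+ P) {f : ℚ → M} {f' : ℚ → N} {x₀ x₁ : M} {y₀ y₁ : N}
    (h : Exp f x₀ x₁) (h' : Exp f' y₀ y₁) :
    Exp (fun t => B (f t) (f' t)) (B x₀ y₀) (B x₁ y₀ + B x₀ y₁) := by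
  obtain ⟨g, b, h1, h2, h3⟩ := h
  obtain ⟨g', b', h1', h2', h3'⟩ := h'
  have r0 := rat_add (rat_const x₀) (rat_smul rat_id (rat_const x₁))
  have r1 := rat_add (rat_add (rat_const y₀) (rat_smul rat_id (rat_const y₁)))
    (rat_smul rat_id (rat_smul rat_id h1'))
  refine ⟨_, b * b', rat_add (rat_add (rat_const (B x₁ y₁)) (rat_bil B r0 h1')) (rat_bil B h1 r1),
    by rw [eval_mul]; exact mul_ne_zero h2 h2', fun t ht => ?_⟩
  rw [eval_mul] at ht
  have e : ∀ (s : ℚ) (x : M) (y : N), B (s • x) y = s • B x y := fun s x y => by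
    rw [← AddMonoidHom.flip_apply B, map_rat_smul, AddMonoidHom.flip_apply]
  beta_reduce
  rw [h3 t (left_ne_zero_of_mul ht), h3' t (right_ne_zero_of_mul ht)]
  simp only [map_add, AddMonoidHom.add_apply, e, map_rat_smul (B _)]
  module

theorem Exp.map (φ : M →+ N) {f : ℚ → M} {x₀ x₁ : M} (h : Exp f x₀ x₁) :
    Exp (fun t => φ (f t)) (φ x₀) (φ x₁) := by
  obtain ⟨g, b, h1, h2, h3⟩ := h
  refine ⟨_, b, rat_map φ h1, h2, fun t ht => ?_⟩
  beta_reduce
  rw [h3 t ht, map_add, map_add, map_rat_smul, map_rat_smul]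

theorem exp_sum {ι : Type} (s : Finset ι) {f : ι → ℚ → M} {x₀ x₁ : ι → M}
    (h : ∀ i ∈ s, Exp (f i) (x₀ i) (x₁ i)) :
    Exp (fun t => ∑ i ∈ s, f i t) (∑ i ∈ s, x₀ i) (∑ i ∈ s, x₁ i) := by
  classical
  induction s using Finset.induction_on with
  | empty => simpa using exp_const (0 : M)
  | insert i s hi ih =>
    simp only [Finset.sum_insert hi]
    exact (h i (Finset.mem_insert_self _ _)).add
      (ih fun j hj => h j (Finset.mem_insert_of_mem hj))

/-- A function which is constant has derivative zero. -/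
theorem Exp.eq_zero {f : ℚ → M} {x₀ x₁ : M} (h : Exp f x₀ x₁) {b : ℚ[X]} (hb : b.eval 0 ≠ 0)
    (hf : ∀ t, b.eval t ≠ 0 → f t = x₀) : x₁ = 0 := by
  obtain ⟨g, b', h1, h2, h3⟩ := h
  refine rat_lim h1 (b := b * b') (by rw [eval_mul]; exact mul_ne_zero hb h2) fun t ht ht0 => ?_
  rw [eval_mul] at ht
  have h4 := h3 t (right_ne_zero_of_mul ht)
  rw [hf t (left_ne_zero_of_mul ht), add_assoc, left_eq_add, pow_two, mul_smul, ← smul_add] at h4
  exact (smul_eq_zero.1 h4).resolve_left ht0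

/-- Linear maps on a space of finite dimension. -/
theorem exp_of_apply [FiniteDimensional ℚ M] {u : ℚ → M →ₗ[ℚ] N} {X₀ X₁ : M →ₗ[ℚ] N}
    (h : ∀ y, Exp (fun t => u t y) (X₀ y) (X₁ y)) : Exp u X₀ X₁ := by
  let e := Module.finBasis ℚ M
  have h1 : ∀ Y : M →ₗ[ℚ] N, Y = ∑ i, LinearMap.smulRightₗ (e.coord i) (Y (e i)) := by
    intro Y
    apply e.ext
    intro j
    simp [LinearMap.sum_apply, Finsupp.single_apply]
  exact (exp_sum Finset.univ fun i _ =>
    (h (e i)).map (LinearMap.smulRightₗ (e.coord i)).toAddMonoidHom).congr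
      (fun t => h1 _) (h1 _) (h1 _)

/-- Multilinear maps. -/
theorem exp_multi : ∀ (n : ℕ) {F : ℚ → MultilinearMap ℚ (fun _ : Fin n => M) N}
    {F₀ F₁ : MultilinearMap ℚ (fun _ : Fin n => M) N} {v : ℚ → Fin n → M} {x y : Fin n → M},
    Exp F F₀ F₁ → (∀ j, Exp (fun t => v t j) (x j) (y j)) →
    Exp (fun t => F t (v t)) (F₀ x) (F₁ x + ∑ j, F₀ (Function.update x j (y j)))
  | 0, F, F₀, F₁, v, x, y, h, _ => by
    let A : MultilinearMap ℚ (fun _ : Fin 0 => M) N →+ N :=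
      { toFun := fun G => G x
        map_zero' := rfl
        map_add' := fun _ _ => rfl }
    refine (h.map A).congr (fun t => ?_) rfl (by simp [A])
    rw [Subsingleton.elim (v t) x]
    rfl
  | n + 1, F, F₀, F₁, v, x, y, h, hv => by
    let B : MultilinearMap ℚ (fun _ : Fin (n + 1) => M) N →+ M →+
        MultilinearMap ℚ (fun _ : Fin n => M) N :=
      { toFun := fun G => (G.curryLeft).toAddMonoidHom
        map_zero' := by ext; rfl
        map_add' := fun G G' => by ext; rfl }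
    have hB : ∀ G z (w : Fin n → M), B G z w = G (Fin.cons z w) := fun _ _ _ => rfl
    have h1 := exp_multi n (v := fun t => Fin.tail (v t)) (x := Fin.tail x) (y := Fin.tail y)
      (h.bil B (hv 0)) fun j => hv j.succ
    refine h1.congr (fun t => by rw [hB, Fin.cons_self_tail]) (by rw [hB, Fin.cons_self_tail]) ?_
    rw [_root_.add_apply, hB, hB, Fin.cons_self_tail, Fin.sum_univ_succ, add_assoc]
    congr 2
    · rw [← Fin.update_cons_zero (x 0), Fin.cons_self_tail]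
    · refine Finset.sum_congr rfl fun j _ => ?_
      rw [hB, Fin.cons_update, Fin.cons_self_tail]
      rfl

end pol

section inv

variable {E : Type} [Field E] [CharZero E]

/-- The inverse of `1 - s(t) n`. -/
theorem exists_inv {n : E} (hn : IsIntegral ℚ n) (s : ℚ[X]) (hs : s.eval 0 = 0) :
    ∃ (b : ℚ[X]) (r : ℚ → E), b.eval 0 ≠ 0 ∧ r ∈ Pol E ∧
      ∀ t, (1 - s.eval t • n) * r t = algebraMap ℚ E (b.eval t) := by
  obtain ⟨m, hm, h0⟩ := hn
  refine ⟨∑ j ∈ Finset.range (m.natDegree + 1), C (m.coeff j) * s ^ (m.natDegree - j),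
    fun t => ∑ j ∈ Finset.range (m.natDegree + 1), ∑ i ∈ Finset.range j,
      (C (m.coeff j) * s ^ (m.natDegree - j) * s ^ i).eval t • n ^ i, ?_,
    pol_sum _ fun j _ => pol_sum _ fun i _ => pol_smul _ (pol_const _), fun t => ?_⟩
  · rw [eval_finsetSum, Finset.sum_range_succ, Finset.sum_eq_zero]
    · simp [hm.coeff_natDegree]
    · intro j hj
      rw [eval_mul, eval_pow, hs, zero_pow (Nat.sub_ne_zero_of_lt (Finset.mem_range.1 hj)),
        mul_zero]
  · have h1 : ∑ j ∈ Finset.range (m.natDegree + 1), algebraMap ℚ E (m.coeff j) * n ^ j = 0 := by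
      rw [← h0, eval₂_eq_sum_range]
    have h2 : algebraMap ℚ E (s.eval t) ^ m.natDegree *
        ∑ j ∈ Finset.range (m.natDegree + 1), algebraMap ℚ E (m.coeff j) * n ^ j = 0 := by
      rw [h1, mul_zero]
    rw [eval_finsetSum, map_sum, ← sub_zero (∑ j ∈ Finset.range (m.natDegree + 1),
      algebraMap ℚ E _), ← h2, Finset.mul_sum, Finset.mul_sum, ← Finset.sum_sub_distrib]
    refine Finset.sum_congr rfl fun j hj => ?_
    have h3 : m.natDegree = (m.natDegree - j) + j :=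
      (Nat.sub_add_cancel (Nat.lt_succ_iff.1 (Finset.mem_range.1 hj))).symm
    have h4 := mul_neg_geom_sum (algebraMap ℚ E (s.eval t) * n) j
    have h5 : ∑ i ∈ Finset.range j,
        (C (m.coeff j) * s ^ (m.natDegree - j) * s ^ i).eval t • n ^ i =
        algebraMap ℚ E (m.coeff j) * algebraMap ℚ E (s.eval t) ^ (m.natDegree - j) *
          ∑ i ∈ Finset.range j, (algebraMap ℚ E (s.eval t) * n) ^ i := by
      rw [Finset.mul_sum]
      refine Finset.sum_congr rfl fun i _ => ?_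
      rw [Algebra.smul_def, eval_mul, eval_mul, eval_C, eval_pow, eval_pow, map_mul, map_mul,
        map_pow, map_pow, mul_pow]
      ring
    rw [h5, Algebra.smul_def, eval_mul, eval_C, eval_pow, map_mul, map_pow]
    obtain ⟨d, hd⟩ : ∃ d, d = m.natDegree - j := ⟨_, rfl⟩
    rw [← hd] at h3 ⊢
    rw [h3, pow_add]
    rw [mul_pow] at h4
    linear_combination (algebraMap ℚ E (m.coeff j) * algebraMap ℚ E (s.eval t) ^ d) * h4

/-- The expansion of the inverse of `1 + t² n`. -/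
theorem exp_inv {n : E} (hn : IsIntegral ℚ n) :
    Exp (fun t : ℚ => (1 + t ^ 2 • n)⁻¹) 1 0 ∧
      ∃ b : ℚ[X], b.eval 0 ≠ 0 ∧ ∀ t : ℚ, b.eval t ≠ 0 → 1 + t ^ 2 • n ≠ 0 := by
  obtain ⟨b, r, h0, hr, h1⟩ := exists_inv hn (-X ^ 2) (by simp)
  have h2 : ∀ t : ℚ, (1 + t ^ 2 • n) * r t = algebraMap ℚ E (b.eval t) := fun t => by
    rw [← h1, eval_neg, eval_pow, eval_X, neg_smul, sub_neg_eq_add]
  have h3 : ∀ t : ℚ, b.eval t ≠ 0 → 1 + t ^ 2 • n ≠ 0 := fun t ht h => by
    have h4 := h2 t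
    rw [h, zero_mul] at h4
    exact ht ((map_eq_zero _).1 h4.symm)
  have h4 : IsRat fun t : ℚ => (1 + t ^ 2 • n)⁻¹ := by
    refine isRat_iff.2 ⟨b, r, h0, hr, fun t ht => ?_⟩
    rw [Algebra.smul_def, ← h2, mul_comm, inv_mul_cancel_left₀ (h3 t ht)]
  refine ⟨⟨_, b, rat_map (AddMonoidHom.mulLeft (-n)) h4, h0, fun t ht => ?_⟩, b, h0, h3⟩
  have h5 := h3 t ht
  beta_reduce
  rw [smul_zero, add_zero, AddMonoidHom.coe_mulLeft]
  simp only [Algebra.smul_def] at h5 ⊢
  field_simp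
  ring

end inv

section tan

variable {V : Type} [AddCommGroup V] [Module ℚ V] {T : Forms V}

theorem mem_tan {X : Module.End ℚ V} {u : ℚ → Module.End ℚ V} (h : Exp u 1 X) {b : ℚ[X]}
    (hb : b.eval 0 ≠ 0) (hu : ∀ t, b.eval t ≠ 0 → ∃ g ∈ T.grp, (g : Module.End ℚ V) = u t) :
    X ∈ T.tan := by
  obtain ⟨g, b', h1, h2, h3⟩ := h
  refine ⟨g, b * b', h1, by rw [eval_mul]; exact mul_ne_zero hb h2, fun t ht => ?_⟩
  rw [eval_mul] at ht
  obtain ⟨v, hv, hv'⟩ := hu t (left_ne_zero_of_mul ht)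
  exact ⟨v, hv, hv'.trans (h3 t (right_ne_zero_of_mul ht))⟩

/-- The tangent vectors lie in the Lie algebra. -/
theorem tan_le_lie {X : Module.End ℚ V} (h : X ∈ T.tan) : X ∈ T.lie := by
  obtain ⟨g, b, h1, h2, h3⟩ := h
  intro i x
  have h4 : Exp (fun t : ℚ => 1 + t • X + t ^ 2 • g t) 1 X := ⟨g, 1, h1, by simp, fun _ _ => rfl⟩
  have h5 := exp_multi (T.deg i) (exp_const (T.τ i))
    (v := fun t j => (1 + t • X + t ^ 2 • g t) (x j)) (x := x) (y := fun j => X (x j))
    fun j => h4.map (LinearMap.applyₗ (R := ℚ) (x j)).toAddMonoidHom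
  have h6 := h5.eq_zero h2 fun t ht => by
    obtain ⟨u, hu, hu'⟩ := h3 t ht
    rw [← hu']
    exact hu i x
  simpa using h6

end tan

end Vale.Agent.P011N.D2
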