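import Vale.Agent.P011N.D2.Good

/-!
The orthogonal Lie algebra is simple.
-/

namespace Vale.Agent.P011N.D2

variable {E V : Type} [Field E] [AddCommGroup V] [Module E V] (B : LinearMap.BilinForm E V)

/-- The orthogonal Lie algebra. -/
def so : Submodule E (Module.End E V) where
  carrier := {Y | ∀ x y, B (Y x) y + B x (Y y) = 0}
  add_mem' := fun {Y Z} hY hZ x y => by
    simp only [LinearMap.add_apply, map_add]
    linear_combination hY x y + hZ x y
  zero_mem' := fun x y => by simp
  smul_mem' := fun c Y hY x y => by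
    simp only [LinearMap.smul_apply, map_smul, smul_eq_mul]
    linear_combination c * hY x y

/-- The elements of rank two. -/
def wedge (x y : V) : Module.End E V := (B x).smulRight y - (B y).smulRight x

theorem wedge_apply (x y z : V) : wedge B x y z = B x z • y - B y z • x := rfl

theorem wedge_self (x : V) : wedge B x x = 0 := sub_self _

theorem wedge_zero_left (x : V) : wedge B 0 x = 0 := by
  ext z
  simp [wedge_apply]

theorem wedge_zero_right (x : V) : wedge B x 0 = 0 := by
  ext z
  simp [wedge_apply]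

theorem wedge_smul_left (c : E) (x y : V) : wedge B (c • x) y = c • wedge B x y := by
  ext z
  simp only [wedge_apply, map_smul, LinearMap.smul_apply, smul_eq_mul]
  module

theorem wedge_smul_right (c : E) (x y : V) : wedge B x (c • y) = c • wedge B x y := by
  ext z
  simp only [wedge_apply, map_smul, LinearMap.smul_apply, smul_eq_mul]
  module

theorem wedge_sub_left (x x' y : V) : wedge B (x - x') y = wedge B x y - wedge B x' y := by
  ext z
  simp only [wedge_apply, map_sub, LinearMap.sub_apply]
  module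

theorem wedge_sub_right (x y y' : V) : wedge B x (y - y') = wedge B x y - wedge B x y' := by
  ext z
  simp only [wedge_apply, map_sub, LinearMap.sub_apply]
  module

theorem wedge_add_right (x y y' : V) : wedge B x (y + y') = wedge B x y + wedge B x y' := by
  ext z
  simp only [wedge_apply, map_add, LinearMap.add_apply]
  module

theorem wedge_swap (x y : V) : wedge B x y = -wedge B y x := (neg_sub _ _).symm

theorem cl_so : Cl (so B) := by
  intro Y hY Z hZ x y
  simp only [LinearMap.sub_apply, Module.End.mul_apply, map_sub]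
  linear_combination hY (Z x) y - hZ (Y x) y + hY x (Z y) - hZ x (Y y)

variable {B}

theorem br_wedge {Y : Module.End E V} (hY : Y ∈ so B) (x y : V) :
    Y * wedge B x y - wedge B x y * Y = wedge B (Y x) y + wedge B x (Y y) := by
  ext z
  have h1 : B x (Y z) = -B (Y x) z := by linear_combination hY x z
  have h2 : B y (Y z) = -B (Y y) z := by linear_combination hY y z
  simp only [LinearMap.sub_apply, LinearMap.add_apply, Module.End.mul_apply, wedge_apply, map_sub,
    map_smul, h1, h2]
  module

theorem wedge_mem (hB : ∀ x y, B x y = B y x) (x y : V) : wedge B x y ∈ so B := by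
  intro u v
  simp only [wedge_apply, map_sub, map_smul, LinearMap.sub_apply, LinearMap.smul_apply,
    smul_eq_mul]
  rw [hB u y, hB u x]
  ring

/-- An orthogonal basis with at least five elements. -/
structure Orth (B : LinearMap.BilinForm E V) {ι : Type} (e : Module.Basis ι E V) : Prop where
  two : (2 : E) ≠ 0
  symm : ∀ x y, B x y = B y x
  orth : ∀ i j, i ≠ j → B (e i) (e j) = 0
  ne : ∀ i, B (e i) (e i) ≠ 0
  five : ∀ a b c d : ι, ∃ p, p ≠ a ∧ p ≠ b ∧ p ≠ c ∧ p ≠ d

variable {ι : Type} [Fintype ι] {e : Module.Basis ι E V} (h : Orth B e)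

include h

theorem Orth.expand (z : V) : ∑ i, (B (e i) z / B (e i) (e i)) • e i = z := by
  classical
  conv_rhs => rw [← e.sum_repr z]
  refine Finset.sum_congr rfl fun i _ => ?_
  congr 1
  rw [div_eq_iff (h.ne i)]
  conv_lhs => rw [← e.sum_repr z, map_sum]
  rw [Finset.sum_eq_single i (fun j _ hj => by rw [map_smul, h.orth i j hj.symm, smul_zero])
    (by simp), map_smul, smul_eq_mul]

theorem Orth.le_of {S : Submodule E (Module.End E V)} (hS : ∀ i j, wedge B (e i) (e j) ∈ S) :
    so B ≤ S := by
  intro Y hY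
  have h1 : ∀ i v, wedge B (e i) v ∈ S := by
    intro i v
    have h2 : v ∈ Submodule.span E (Set.range e) := by rw [e.span_eq]; trivial
    induction h2 using Submodule.span_induction with
    | mem x hx =>
      obtain ⟨j, rfl⟩ := hx
      exact hS i j
    | zero => rw [wedge_zero_right]; exact zero_mem _
    | add x y _ _ hx hy => rw [wedge_add_right]; exact add_mem hx hy
    | smul c x _ hx => rw [wedge_smul_right]; exact S.smul_mem c hx
  have h2 : (2 : E) • Y = ∑ i, (B (e i) (e i))⁻¹ • wedge B (e i) (Y (e i)) := by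
    ext z
    rw [LinearMap.smul_apply, two_smul, LinearMap.sum_apply]
    conv_lhs => rw [← h.expand (Y z)]; enter [1]; rw [h.expand, ← h.expand z, map_sum]
    rw [← Finset.sum_add_distrib]
    refine Finset.sum_congr rfl fun i _ => ?_
    have h3 : B (Y (e i)) z = -B (e i) (Y z) := by linear_combination hY (e i) z
    rw [LinearMap.smul_apply, wedge_apply, h3, map_smul, div_eq_inv_mul, div_eq_inv_mul]
    module
  have h3 : (2 : E) • Y ∈ S := h2 ▸ sum_mem fun i _ => S.smul_mem _ (h1 i _)
  exact (S.smul_mem_iff h.two).1 h3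

omit [Fintype ι] in
theorem Orth.w1 {i j : ι} (hij : i ≠ j) : wedge B (e i) (e j) (e i) = B (e i) (e i) • e j := by
  rw [wedge_apply, h.orth j i hij.symm, zero_smul, sub_zero]

omit [Fintype ι] in
theorem Orth.w0 {i j m : ι} (h1 : i ≠ m) (h2 : j ≠ m) : wedge B (e i) (e j) (e m) = 0 := by
  rw [wedge_apply, h.orth i m h1, h.orth j m h2, zero_smul, zero_smul, sub_zero]

/-- Generation by the elements with a fixed first vector. -/
theorem Orth.le_of_cl {S : Submodule E (Module.End E V)} (hc : Cl S) (o : ι)
    (hS : ∀ j, j ≠ o → wedge B (e o) (e j) ∈ S) : so B ≤ S := by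
  refine h.le_of fun i j => ?_
  by_cases hij : i = j
  · rw [hij, wedge_self]
    exact zero_mem _
  by_cases hi : i = o
  · rw [hi]
    exact hS j fun e => hij (hi.trans e.symm)
  by_cases hj : j = o
  · rw [hj, wedge_swap]
    exact neg_mem (hS i hi)
  have h1 := hc _ (hS i hi) _ (hS j hj)
  rw [br_wedge (wedge_mem h.symm _ _), h.w1 (Ne.symm hi), h.w0 (Ne.symm hj) hij,
    wedge_zero_right, add_zero, wedge_smul_left] at h1
  exact (S.smul_mem_iff (h.ne o)).1 h1

theorem Orth.simple {U : Submodule E (Module.End E V)} (hU : U ≤ so B) (h0 : U ≠ ⊥)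
    (hs : so B ≤ stabL U) : so B ≤ U := by
  obtain ⟨Y, hY, hY0⟩ := (Submodule.ne_bot_iff U).1 h0
  obtain ⟨i, j, hij⟩ : ∃ i j, B (e j) (Y (e i)) ≠ 0 := by
    by_contra h1
    push Not at h1
    refine hY0 (e.ext fun i => ?_)
    rw [← h.expand (Y (e i))]
    simp [h1]
  have hne : i ≠ j := by
    rintro rfl
    have h1 := hU hY (e i) (e i)
    rw [h.symm, ← two_mul] at h1
    exact hij ((mul_eq_zero.1 h1).resolve_left h.two)
  obtain ⟨p, p1, p2, -, -⟩ := h.five i j i j
  obtain ⟨q, q1, q2, q3, -⟩ := h.five i j p p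
  obtain ⟨r, r1, r2, r3, r4⟩ := h.five i j p q
  have hw : ∀ x y, ∀ u ∈ U, wedge B x y * u - u * wedge B x y ∈ U :=
    fun x y => hs (wedge_mem h.symm x y)
  have hb : ∀ x y z w c, wedge B x y * (c • wedge B z w) - (c • wedge B z w) * wedge B x y =
      (c : E) • wedge B (wedge B x y z) w + c • wedge B z (wedge B x y w) := by
    intro x y z w c
    rw [mul_smul_comm, smul_mul_assoc, ← smul_sub, br_wedge (wedge_mem h.symm _ _), smul_add]
  have hadd : ∀ A u v : Module.End E V, A * (u + v) - (u + v) * A =
      (A * u - u * A) + (A * v - v * A) := fun A u v => by noncomm_ring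
  have hsub : ∀ A u v : Module.End E V, A * (u - v) - (u - v) * A =
      (A * u - u * A) - (A * v - v * A) := fun A u v => by noncomm_ring
  have z1 := neg_mem (hw (e i) (e p) Y hY)
  rw [neg_sub, br_wedge (hU hY)] at z1
  have z2 := hw (e j) (e q) _ z1
  rw [hadd, br_wedge (wedge_mem h.symm _ _), br_wedge (wedge_mem h.symm _ _),
    h.w0 p2.symm q3, h.w0 hne.symm q1, wedge_zero_right, wedge_zero_left, add_zero, zero_add,
    wedge_apply, wedge_apply, wedge_sub_left, wedge_sub_right, wedge_smul_left, wedge_smul_left,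
    wedge_smul_right, wedge_smul_right] at z2
  have z3 := hw (e q) (e r) _ z2
  rw [hadd, hsub, hsub, hb, hb, hb, hb, h.w1 r4.symm, h.w0 q3 r3, h.w0 q2 r2, h.w0 q1 r1] at z3
  simp only [wedge_zero_right, wedge_zero_left, smul_zero, add_zero, zero_add, sub_zero,
    wedge_smul_left, wedge_smul_right, smul_smul] at z3
  have z4 := hw (e p) (e q) _ z3
  rw [hadd, hb, hb, h.w1 q3.symm, h.w0 r3.symm r4.symm, h.w0 p1 q1] at z4
  simp only [wedge_zero_right, wedge_zero_left, smul_zero, add_zero, zero_add,
    wedge_smul_right, smul_smul] at z4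
  have z5 := (U.smul_mem_iff (mul_ne_zero (mul_ne_zero hij (h.ne q)) (h.ne p))).1 z4
  refine h.le_of_cl (fun Y hY Z hZ => hs (hU hY) Z hZ) r fun s hs' => ?_
  by_cases hq : s = q
  · rw [hq]
    exact z5
  have z6 := hw (e q) (e s) _ z5
  rw [br_wedge (wedge_mem h.symm _ _), h.w1 (Ne.symm hq), h.w0 r4.symm hs', wedge_zero_left,
    zero_add, wedge_smul_right] at z6
  exact (U.smul_mem_iff (h.ne q)).1 z6

theorem Orth.simpleL [Nonempty ι] : SimpleL (so B) := by
  obtain ⟨o⟩ := ‹Nonempty ι›
  obtain ⟨p, p1, -, -, -⟩ := h.five o o o o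
  obtain ⟨q, q1, q2, -, -⟩ := h.five o p p p
  refine ⟨cl_so B, fun U => h.simple, ⟨_, wedge_mem h.symm (e o) (e p), _,
    wedge_mem h.symm (e o) (e q), fun h1 => ?_⟩, fun n hn => ?_⟩
  · have h2 := br_wedge (wedge_mem h.symm (e o) (e p)) (e o) (e q)
    rw [h1, sub_self, h.w1 p1.symm, h.w0 q1.symm q2.symm, wedge_zero_right, add_zero,
      wedge_smul_left] at h2
    have h3 := congrArg (fun f : Module.End E V => f (e p)) h2
    simp only [LinearMap.zero_apply, LinearMap.smul_apply, h.w1 q2.symm, smul_smul] at h3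
    exact e.ne_zero q ((smul_eq_zero.1 h3.symm).resolve_left (mul_ne_zero (h.ne o) (h.ne p)))
  · have h1 : ∀ i j z, n (wedge B (e i) (e j) z) = wedge B (e i) (e j) (n z) := fun i j z =>
      congrArg (fun f : Module.End E V => f z) (hn (wedge_mem h.symm (e i) (e j)))
    have h2 : ∀ i m, i ≠ m → B (e i) (n (e m)) = 0 := by
      intro i m him
      obtain ⟨j, j1, j2, -, -⟩ := h.five i m i m
      have h3 := congrArg (B (e j)) (h1 i j (e m))
      rw [h.w0 him j2, map_zero, map_zero, wedge_apply, map_sub, map_smul, map_smul,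
        h.orth j i j1, smul_zero, sub_zero, smul_eq_mul] at h3
      exact (mul_eq_zero.1 h3.symm).resolve_right (h.ne j)
    have h3 : ∀ i j, i ≠ j → n (e j) = (B (e i) (n (e i)) / B (e i) (e i)) • e j := by
      intro i j hij
      have h4 := h1 i j (e i)
      rw [h.w1 hij, map_smul, wedge_apply, h2 j i hij.symm, zero_smul, sub_zero] at h4
      rw [div_eq_inv_mul, mul_smul, ← h4, inv_smul_smul₀ (h.ne i)]
    have h4 := (h3 o q q1.symm).symm.trans (h3 p q q2.symm)
    have h5 := smul_left_injective E (e.ne_zero q) h4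
    have h6 : n = (B (e o) (n (e o)) / B (e o) (e o)) • LinearMap.id := by
      refine e.ext fun j => ?_
      rw [LinearMap.smul_apply, LinearMap.id_apply]
      by_cases hj : j = o
      · rw [hj, h5]
        exact h3 p o p1
      · exact h3 o j (Ne.symm hj)
    exact ⟨_, fun x => by rw [h6]; rfl⟩

end Vale.Agent.P011N.D2
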